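import Vale.Agent.P205.Space.Eval

/-!
# P205, completeness
-/

namespace Vale.Agent.P205

open Real MeasureTheory Finset
open scoped ContDiff

/-- Completeness. -/
theorem compl : ComplStmt := by
  intro P s hs f C q hq0 hq1 ⟨M0, h0⟩ hd
  have hC : 0 ≤ C := by simpa using (hd 0).2.2.1
  have hnb : ∀ k, Continuous (f k) ∧ Per (f k) := by
    intro k
    induction k with
    | zero => exact ⟨h0.1, h0.2.1⟩
    | succ k ih =>
      refine ⟨?_, fun x a b => ?_⟩
      · have := (hd k).1.add ih.1
        exact this.congr fun x => sub_add_cancel _ _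
      · have := (hd k).2.1 x a b
        simp only [ih.2 x a b] at this
        simpa using this
  have hdc : ∀ k, Bd P s (fun n => fc (f (k + 1)) n - fc (f k) n) (C * q ^ k) := fun k =>
    (hd k).2.2.of_norm_le fun n => by rw [fc_sub (hnb (k + 1)).1 (hnb k).1]
  have htel : ∀ k d, Bd P s (fun n => fc (f (k + d)) n - fc (f k) n)
      (C * q ^ k * ∑ i ∈ Finset.range d, q ^ i) := by
    intro k d
    induction d with
    | zero => exact ⟨by simp, fun S => by simp⟩
    | succ d ih =>
      refine (ih.add (hdc (k + d))).of_norm_le (fun n => le_of_eq ?_) |>.mono (le_of_eq ?_)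
      · congr 1
        rw [← add_assoc]
        ring
      · rw [Finset.sum_range_succ, pow_add]
        ring
  have hgeo : ∀ d, ∑ i ∈ Finset.range d, q ^ i ≤ 1 / (1 - q) := fun d => by
    rw [one_div, ← tsum_geometric_of_lt_one hq0 hq1]
    exact (summable_geometric_of_lt_one hq0 hq1).sum_le_tsum _ fun i _ => pow_nonneg hq0 i
  have hlim : ∀ n, ∃ L, Filter.Tendsto (fun k => fc (f k) n) Filter.atTop (nhds L) := fun n =>
    cauchySeq_tendsto_of_complete <| cauchySeq_of_le_geometric q C hq1 fun k => by
      rw [dist_eq_norm, norm_sub_rev]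
      exact (hdc k).norm_le n
  choose L hL using hlim
  have hB : ∀ k, Bd P s (fun n => L n - fc (f k) n) (C * q ^ k / (1 - q)) := by
    intro k
    have hb : 0 ≤ C * q ^ k / (1 - q) :=
      div_nonneg (mul_nonneg hC (pow_nonneg hq0 k)) (sub_nonneg.2 hq1.le)
    refine ⟨hb, fun S => ?_⟩
    refine le_of_tendsto (x := Filter.atTop)
      (f := fun d => ∑ n ∈ S, (wt P s n * ‖fc (f (k + d)) n - fc (f k) n‖) ^ 2)
      (tendsto_finsetSum S fun n _ => ?_) (Filter.Eventually.of_forall fun d => ?_)
    · exact (((hL n).comp (Filter.tendsto_atTop_mono (fun d => Nat.le_add_left d k)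
        Filter.tendsto_id)).sub_const _).norm.const_mul _ |>.pow 2
    · refine ((htel k d).mono ?_).2 S
      rw [div_eq_mul_one_div]
      exact mul_le_mul_of_nonneg_left (hgeo d) (mul_nonneg hC (pow_nonneg hq0 k))
  have hLb : Bd P s L (C * q ^ 0 / (1 - q) + M0) :=
    ((hB 0).add h0.2.2).of_norm_le fun n => by rw [sub_add_cancel]
  have hl := (hLb.l1 (by omega : 2 ≤ s)).1
  refine ⟨ev L, fun k => ⟨(continuous_ev hl).sub (hnb k).1,
    fun x a b => by simp only [per_ev L x a b, (hnb k).2 x a b], (hB k).of_norm_le fun n => ?_⟩⟩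
  rw [fc_sub (continuous_ev hl) (hnb k).1, fc_ev hl]

end Vale.Agent.P205
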