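import Vale.Agent.P205.Space.Eval

/-!
# P205, derivatives and smooth functions
-/

namespace Vale.Agent.P205

open Real MeasureTheory Finset
open scoped ContDiff

/-- The first coordinate, complex valued. -/
noncomputable def crd (i : Fin 2) : E2 →L[ℝ] ℂ :=
  Complex.ofRealCLM.comp (if i = 0 then ContinuousLinearMap.fst ℝ ℝ ℝ
    else ContinuousLinearMap.snd ℝ ℝ ℝ)

/-- The exponent of a character. -/
noncomputable def chrD (n : ℤ × ℤ) : E2 →L[ℝ] ℂ := dsym 0 n • crd 0 + dsym 1 n • crd 1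

lemma chrD_apply (n : ℤ × ℤ) (x : E2) :
    chrD n x = dsym 0 n * (x.1 : ℂ) + dsym 1 n * (x.2 : ℂ) := by
  simp [chrD, crd]

lemma chrD_e (n : ℤ × ℤ) (i : Fin 2) : chrD n (e i) = dsym i n := by
  fin_cases i <;> simp [chrD_apply, e]

lemma norm_dsym_le (i : Fin 2) (n : ℤ × ℤ) : ‖dsym i n‖ ≤ 2 * π * len n := by
  have h : |(fr i n : ℝ)| ≤ len n := by
    fin_cases i <;> simp [fr, len]
  simp only [dsym, norm_mul, Complex.norm_I, mul_one, Complex.norm_real, Complex.norm_intCast,
    Complex.norm_ofNat, Real.norm_eq_abs, abs_of_pos Real.pi_pos]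
  exact mul_le_mul_of_nonneg_left h (by positivity)

lemma norm_chrD_le (n : ℤ × ℤ) : ‖chrD n‖ ≤ 4 * π * len n := by
  refine ContinuousLinearMap.opNorm_le_bound _ (by have := len_nonneg n; positivity) fun x => ?_
  rw [chrD_apply]
  refine (norm_add_le _ _).trans ?_
  rw [norm_mul, norm_mul, Complex.norm_real, Complex.norm_real]
  have h1 : ‖x.1‖ ≤ ‖x‖ := norm_fst_le x
  have h2 : ‖x.2‖ ≤ ‖x‖ := norm_snd_le x
  have := len_nonneg n
  calc ‖dsym 0 n‖ * ‖x.1‖ + ‖dsym 1 n‖ * ‖x.2‖
      ≤ 2 * π * len n * ‖x‖ + 2 * π * len n * ‖x‖ :=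
        add_le_add (mul_le_mul (norm_dsym_le 0 n) h1 (norm_nonneg _) (by positivity))
          (mul_le_mul (norm_dsym_le 1 n) h2 (norm_nonneg _) (by positivity))
    _ = _ := by ring

lemma chr_eq_exp (n : ℤ × ℤ) (x : E2) : chr n x = Complex.exp (chrD n x) := by
  rw [chr, chrD_apply]
  congr 1
  simp only [dsym, fr, Fin.isValue, ↓reduceIte, one_ne_zero]
  push_cast
  ring

lemma hasFDerivAt_chr (n : ℤ × ℤ) (x : E2) : HasFDerivAt (chr n) (chr n x • chrD n) x := by
  rw [funext (chr_eq_exp n)]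
  exact (chrD n).hasFDerivAt.cexp

lemma hasFDerivAt_ev {c : Co} (h : Summable fun n => (1 + len n) * ‖c n‖) (x : E2) :
    HasFDerivAt (ev c) (∑' n, c n • (chr n x • chrD n)) x := by
  refine hasFDerivAt_tsum (𝕜 := ℝ) (f := fun n y => c n * chr n y)
    (f' := fun n y => c n • (chr n y • chrD n)) (h.mul_left (4 * π)) (fun n y => ?_)
    (fun n y => ?_) (x₀ := 0) (Summable.of_norm ?_) x
  · simpa [smul_eq_mul] using (hasFDerivAt_chr n y).const_mul (c n)
  · rw [norm_smul, norm_smul, norm_chr, one_mul]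
    calc ‖c n‖ * ‖chrD n‖ ≤ ‖c n‖ * (4 * π * (1 + len n)) := by
          refine mul_le_mul_of_nonneg_left ((norm_chrD_le n).trans ?_) (norm_nonneg _)
          exact mul_le_mul_of_nonneg_left (by linarith) (by positivity)
      _ = _ := by ring
  · refine Summable.of_nonneg_of_le (fun n => norm_nonneg _) (fun n => ?_) h
    simp only [norm_mul, norm_chr, mul_one]
    exact le_mul_of_one_le_left (norm_nonneg _) (le_add_of_nonneg_right (len_nonneg n))

lemma summable_dsym {c : Co} (k : ℕ) (h : Summable fun n => (1 + len n) ^ (k + 1) * ‖c n‖)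
    (i : Fin 2) : Summable fun n => (1 + len n) ^ k * ‖dsym i n * c n‖ := by
  refine Summable.of_nonneg_of_le (fun n => ?_) (fun n => ?_) (h.mul_left (2 * π))
  · have := len_nonneg n
    positivity
  · have := len_nonneg n
    rw [norm_mul]
    calc (1 + len n) ^ k * (‖dsym i n‖ * ‖c n‖)
        ≤ (1 + len n) ^ k * (2 * π * (1 + len n) * ‖c n‖) := by
          gcongr
          exact (norm_dsym_le i n).trans (mul_le_mul_of_nonneg_left (by linarith) (by positivity))
      _ = _ := by ring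

lemma fderiv_ev {c : Co} (h : Summable fun n => (1 + len n) * ‖c n‖) (x : E2) :
    fderiv ℝ (ev c) x = ev (fun n => dsym 0 n * c n) x • crd 0
      + ev (fun n => dsym 1 n * c n) x • crd 1 := by
  have hs : ∀ i, Summable fun n => (dsym i n * c n) * chr n x := fun i =>
    summable_ev_term (by simpa using summable_dsym 0 (by simpa using h) i) x
  have hh : HasSum (fun n => c n • (chr n x • chrD n))
      (ev (fun n => dsym 0 n * c n) x • crd 0 + ev (fun n => dsym 1 n * c n) x • crd 1) := by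
    have := ((hs 0).hasSum.smul_const (crd 0)).add ((hs 1).hasSum.smul_const (crd 1))
    refine this.congr_fun fun n => ?_
    rw [chrD, smul_add, smul_add, smul_smul, smul_smul, smul_smul, smul_smul]
    congr 2 <;> ring
  rw [(hasFDerivAt_ev h x).fderiv, hh.tsum_eq]

lemma pd_ev {c : Co} (h : Summable fun n => (1 + len n) * ‖c n‖) (i : Fin 2) (x : E2) :
    pd i (ev c) x = ev (fun n => dsym i n * c n) x := by
  rw [pd, fderiv_ev h]
  fin_cases i <;> simp [e, crd]

lemma contDiff_ev : ∀ (k : ℕ) (c : Co), (Summable fun n => (1 + len n) ^ k * ‖c n‖) →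
    ContDiff ℝ k (ev c) := by
  intro k
  induction k with
  | zero =>
    intro c h
    exact contDiff_zero.2 (continuous_ev (by simpa using h))
  | succ k ih =>
    intro c h
    have h1 : Summable fun n => (1 + len n) * ‖c n‖ := by
      refine Summable.of_nonneg_of_le (fun n => ?_) (fun n => ?_) h
      · exact mul_nonneg (by linarith [len_nonneg n]) (norm_nonneg _)
      · exact mul_le_mul_of_nonneg_right (le_self_pow₀ (by linarith [len_nonneg n]) (by omega))
          (norm_nonneg _)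
    have := contDiff_succ_iff_fderiv (𝕜 := ℝ) (n := (k : WithTop ℕ∞)) (f := ev c)
    push_cast
    refine this.2 ⟨fun x => (hasFDerivAt_ev h1 x).differentiableAt, by simp, ?_⟩
    rw [funext (fderiv_ev h1)]
    exact ((ih _ (summable_dsym k h 0)).smul contDiff_const).add
      ((ih _ (summable_dsym k h 1)).smul contDiff_const)

/-- Derivatives are multipliers. -/
theorem deriv : DerivStmt := by
  intro P s hs f M hf
  have hsum : Summable fun n => (1 + len n) * ‖fc f n‖ := by
    refine (hf.2.2.summable_mul (t := 2) le_rfl P.R0_pos.le _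
      (fun n => by linarith [len_nonneg n]) fun n => ?_).1
    have h1 : (1 + len n) ≤ P.R0 * (1 + len n / P.R0) := by
      rw [mul_add, mul_div_cancel₀ _ P.R0_pos.ne']
      linarith [P.one_le_R0]
    calc (1 + len n) * wt0 P.R0 2 n ≤ P.R0 * (1 + len n / P.R0) * wt0 P.R0 2 n :=
          mul_le_mul_of_nonneg_right h1 (wt0_pos P.R0_pos.le _ _).le
      _ = P.R0 * wt0 P.R0 3 n := by rw [wt0, wt0]; ring
      _ ≤ P.R0 * wt P s n := by
        refine mul_le_mul_of_nonneg_left ?_ P.R0_pos.le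
        rw [wt_eq]
        refine (pow_le_pow_right₀ (one_le_base P.R0_pos.le n) (by omega : 3 ≤ s)).trans ?_
        exact le_mul_of_one_le_right (wt0_pos P.R0_pos.le _ _).le (one_le_wt0 P.R_pos.le _ _)
  have he := hf.ev_eq (by omega : 2 ≤ s)
  constructor
  · rw [← he]
    exact contDiff_ev 1 _ (by simpa using hsum)
  · intro i x
    have := pd_ev hsum i x
    rw [he] at this
    exact this

/-- Functions in all the spaces are smooth. -/
theorem smoothOut : SmoothOutStmt := by
  intro f s hs h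
  have hsum : ∀ k : ℕ, Summable fun n => (1 + len n) ^ k * ‖fc f n‖ := by
    intro k
    obtain ⟨P, hj, M, hf⟩ := h k
    refine (hf.2.2.summable_mul (t := s) (by omega) (pow_nonneg P.R_pos.le k) _
      (fun n => pow_nonneg (by linarith [len_nonneg n]) k) fun n => ?_).1
    rw [wt_eq, hj, mul_comm (wt0 P.R0 s n) (wt0 P.R k n), ← mul_assoc]
    refine mul_le_mul_of_nonneg_right ?_ (wt0_pos P.R0_pos.le _ _).le
    rw [wt0, ← mul_pow]
    refine pow_le_pow_left₀ (by linarith [len_nonneg n]) ?_ k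
    rw [mul_add, mul_div_cancel₀ _ P.R_pos.ne']
    linarith [P.one_le_R]
  obtain ⟨P, -, M, hf⟩ := h 0
  rw [← hf.ev_eq (by omega : 2 ≤ s)]
  exact contDiff_infty.2 fun k => contDiff_ev k _ (hsum k)

lemma Per.exists_bound {α : Type*} [NormedAddCommGroup α] {f : E2 → α} (hf : Continuous f)
    (hp : Per f) : ∃ K, ∀ x, ‖f x‖ ≤ K := by
  obtain ⟨K, hK⟩ := ((isCompact_Icc (a := (0 : ℝ)) (b := 1)).prod
    (isCompact_Icc (a := (0 : ℝ)) (b := 1))).exists_bound_of_continuousOn hf.continuousOn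
  refine ⟨K, fun x => ?_⟩
  have h := hp (Int.fract x.1, Int.fract x.2) ⌊x.1⌋ ⌊x.2⌋
  rw [Prod.mk_add_mk, Int.fract_add_floor, Int.fract_add_floor] at h
  rw [h]
  exact hK _ ⟨⟨Int.fract_nonneg _, (Int.fract_lt_one _).le⟩,
    Int.fract_nonneg _, (Int.fract_lt_one _).le⟩

lemma per_pd {f : E2 → ℂ} (hp : Per f) (i : Fin 2) : Per (pd i f) := by
  intro x a b
  have h : (fun y => f (y + ((a : ℝ), (b : ℝ)))) = f := funext fun y => hp y a b
  rw [pd, pd, ← fderiv_comp_add_right, h]

lemma contDiff_pd {f : E2 → ℂ} (hf : ContDiff ℝ ∞ f) (i : Fin 2) : ContDiff ℝ ∞ (pd i f) :=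
  (hf.fderiv_right (m := ∞) le_rfl).clm_apply contDiff_const

lemma hasDerivAt_ch1 (k : ℤ) (x : ℝ) :
    HasDerivAt (ch1 k) (2 * π * (k : ℂ) * Complex.I * ch1 k x) x := by
  have h := (((hasDerivAt_id x).ofReal_comp.const_mul ((k : ℝ) : ℂ)).const_mul
    (2 * π : ℂ)).mul_const Complex.I
  refine h.cexp.congr_deriv ?_
  simp only [ch1, id, Complex.ofReal_one, Complex.ofReal_intCast]
  ring

lemma integral_ch1_deriv {g g' : ℝ → ℂ} (hg : ∀ x, HasDerivAt g (g' x) x) (hc : Continuous g')
    (hp : g 1 = g 0) (k : ℤ) :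
    ∫ x in (0 : ℝ)..1, ch1 k x * g' x
      = -(2 * π * (k : ℂ) * Complex.I) * ∫ x in (0 : ℝ)..1, ch1 k x * g x := by
  rw [intervalIntegral.integral_mul_deriv_eq_deriv_mul (fun x _ => hasDerivAt_ch1 k x)
    (fun x _ => hg x) ((continuous_const.mul (continuous_ch1 k)).intervalIntegrable _ _)
    (hc.intervalIntegrable _ _), hp]
  have h1 : ch1 k 1 = 1 := by simpa using ch1_int k 1
  have h0 : ch1 k 0 = 1 := by simpa using ch1_int k 0
  rw [h1, h0, sub_self, zero_sub, ← intervalIntegral.integral_const_mul, ← intervalIntegral.integral_neg]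
  refine intervalIntegral.integral_congr fun x _ => ?_
  ring

lemma mean2_swap {f : E2 → ℂ} (hf : Continuous f) :
    mean2 f = ∫ y in (0 : ℝ)..1, ∫ x in (0 : ℝ)..1, f (x, y) := by
  refine intervalIntegral_intervalIntegral_swap (F := fun x y => f (x, y)) ?_
  exact (hf.continuousOn.integrableOn_compact ((isCompact_uIcc).prod isCompact_uIcc)).mono_set
    (Set.prod_mono Set.uIoc_subset_uIcc Set.uIoc_subset_uIcc)

lemma fc_pd {f : E2 → ℂ} (hf : ContDiff ℝ ∞ f) (hp : Per f) (i : Fin 2) (n : ℤ × ℤ) :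
    fc (pd i f) n = dsym i n * fc f n := by
  have hd : ∀ p, HasFDerivAt f (fderiv ℝ f p) p := fun p =>
    (hf.differentiable (by simp) p).hasFDerivAt
  have hc := (contDiff_pd hf i).continuous
  fin_cases i
  · simp only [Fin.zero_eta, Fin.isValue] at hc ⊢
    rw [fc_eq_mean2, fc_eq_mean2,
      mean2_swap (f := fun x => chr (-n) x * pd 0 f x) ((continuous_chr _).mul hc),
      mean2_swap (f := fun x => chr (-n) x * f x) ((continuous_chr _).mul hf.continuous),
      ← intervalIntegral.integral_const_mul]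
    refine intervalIntegral.integral_congr fun y _ => ?_
    simp only [chr_eq_mul, Prod.fst_neg, Prod.snd_neg, mul_comm (ch1 (-n.1) _) (ch1 (-n.2) _),
      mul_assoc, intervalIntegral.integral_const_mul]
    rw [integral_ch1_deriv (g := fun x => f (x, y)) (g' := fun x => pd 0 f (x, y)) (fun x => ?_)
      (hc.comp (continuous_id.prodMk continuous_const)) ?_]
    · simp only [dsym, fr, ↓reduceIte, Int.cast_neg]
      ring
    · have := hp (0, y) 1 0
      simpa using this
    · exact (hd (x, y)).comp_hasDerivAt x ((hasDerivAt_id x).prodMk (hasDerivAt_const x y))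
  · simp only [Fin.mk_one, Fin.isValue] at hc ⊢
    rw [fc, fc, ← intervalIntegral.integral_const_mul]
    refine intervalIntegral.integral_congr fun x _ => ?_
    simp only [chr_eq_mul, Prod.fst_neg, Prod.snd_neg, mul_assoc,
      intervalIntegral.integral_const_mul]
    rw [integral_ch1_deriv (g := fun y => f (x, y)) (g' := fun y => pd 1 f (x, y)) (fun y => ?_)
      (hc.comp (continuous_const.prodMk continuous_id)) ?_]
    · simp only [dsym, fr, one_ne_zero, if_false, Int.cast_neg]
      ring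
    · have := hp (x, 0) 0 1
      simpa using this
    · exact (hd (x, y)).comp_hasDerivAt y ((hasDerivAt_const y x).prodMk (hasDerivAt_id y))

lemma fc_decay : ∀ (k : ℕ) (f : E2 → ℂ), ContDiff ℝ ∞ f → Per f →
    ∃ D, ∀ n, (1 + len n) ^ k * ‖fc f n‖ ≤ D := by
  intro k
  induction k with
  | zero =>
    intro f hf hp
    obtain ⟨K, hK⟩ := Per.exists_bound hf.continuous hp
    exact ⟨K, fun n => by simpa using fc_norm_le hK n⟩
  | succ k ih =>
    intro f hf hp
    obtain ⟨D, hD⟩ := ih f hf hp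
    obtain ⟨D0, hD0⟩ := ih _ (contDiff_pd hf 0) (per_pd hp 0)
    obtain ⟨D1, hD1⟩ := ih _ (contDiff_pd hf 1) (per_pd hp 1)
    refine ⟨D + D0 + D1, fun n => ?_⟩
    have hl := len_nonneg n
    have h2 : len n * ‖fc f n‖ ≤ ‖fc (pd 0 f) n‖ + ‖fc (pd 1 f) n‖ := by
      rw [fc_pd hf hp, fc_pd hf hp, norm_mul, norm_mul, ← add_mul]
      refine mul_le_mul_of_nonneg_right ?_ (norm_nonneg _)
      simp only [dsym, fr, norm_mul, Complex.norm_I, mul_one, Complex.norm_real,
        Complex.norm_intCast, Complex.norm_ofNat, Real.norm_eq_abs, abs_of_pos Real.pi_pos,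
        ↓reduceIte, one_ne_zero, len]
      rw [← mul_add]
      exact le_mul_of_one_le_left (by positivity) (by linarith [Real.two_le_pi])
    calc (1 + len n) ^ (k + 1) * ‖fc f n‖
        = (1 + len n) ^ k * ‖fc f n‖ + (1 + len n) ^ k * (len n * ‖fc f n‖) := by ring
      _ ≤ D + (1 + len n) ^ k * (‖fc (pd 0 f) n‖ + ‖fc (pd 1 f) n‖) :=
          add_le_add (hD n) (mul_le_mul_of_nonneg_left h2 (by positivity))
      _ ≤ _ := by linarith [hD0 n, hD1 n]

lemma fc_sq_decay {f : E2 → ℂ} (hf : ContDiff ℝ ∞ f) (hp : Per f) (q : ℕ) :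
    ∃ T, 0 ≤ T ∧ ∀ S : Finset (ℤ × ℤ), ∑ n ∈ S, ((1 + len n) ^ q * ‖fc f n‖) ^ 2 ≤ T := by
  obtain ⟨D, hD⟩ := fc_decay (q + 2) f hf hp
  have hs := summable_inv_wt0_sq (le_refl (1 : ℝ)) (le_refl 2)
  refine ⟨D ^ 2 * ∑' n, ((wt0 1 2 n) ^ 2)⁻¹,
    mul_nonneg (sq_nonneg D) (tsum_nonneg fun n => inv_nonneg.2 (sq_nonneg _)), fun S => ?_⟩
  refine le_trans ?_ (mul_le_mul_of_nonneg_left
    (hs.sum_le_tsum S fun n _ => inv_nonneg.2 (sq_nonneg _)) (sq_nonneg D))
  rw [Finset.mul_sum]
  refine Finset.sum_le_sum fun n _ => ?_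
  have hb : 0 < 1 + len n := by linarith [len_nonneg n]
  rw [wt0, div_one, ← div_eq_mul_inv, le_div_iff₀ (by positivity), ← mul_pow]
  refine pow_le_pow_left₀ (by positivity) (le_trans (le_of_eq ?_) (hD n)) 2
  ring

lemma base_pow_le {x R : ℝ} (hx : 0 ≤ x) (hR : 1 ≤ R) (m : ℕ) :
    (1 + x / R) ^ m ≤ 1 + ((1 + x) ^ m - 1) / R := by
  have hR0 : 0 < R := lt_of_lt_of_le one_pos hR
  induction m with
  | zero => simp
  | succ m ih =>
    set y := (1 + x) ^ m - 1 with hy
    have hy0 : 0 ≤ y := sub_nonneg.2 (one_le_pow₀ (by linarith))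
    have hxy : x / R * (y / R) ≤ x * y / R := by
      rw [div_mul_div_comm]
      exact div_le_div_of_nonneg_left (mul_nonneg hx hy0) hR0 (le_mul_of_one_le_left hR0.le hR)
    calc (1 + x / R) ^ (m + 1) ≤ (1 + y / R) * (1 + x / R) := by
          rw [pow_succ]
          exact mul_le_mul_of_nonneg_right ih (by positivity)
      _ = 1 + (x / R + y / R) + x / R * (y / R) := by ring
      _ ≤ 1 + (x / R + y / R) + x * y / R := by linarith
      _ = _ := by rw [pow_succ, hy]; ring

/-- Smooth periodic functions belong to every space. -/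
theorem smoothMem : SmoothMemStmt := by
  intro f hf hp R0 _ s
  obtain ⟨T, hT0, hT⟩ := fc_sq_decay hf hp s
  refine ⟨Real.sqrt (T + 1), fun j => ?_⟩
  obtain ⟨T', hT0', hT'⟩ := fc_sq_decay hf hp (s + j)
  refine ⟨T', fun P hPR0 hPj hor => ⟨hf.continuous, hp, Real.sqrt_nonneg _, fun S => ?_⟩⟩
  subst hPj
  rw [Real.sq_sqrt (by linarith)]
  have hw0 : ∀ n, wt0 P.R0 s n ≤ (1 + len n) ^ s := fun n =>
    pow_le_pow_left₀ (zero_le_one.trans (one_le_base P.R0_pos.le n))
      (by linarith [div_le_self (len_nonneg n) P.one_le_R0]) s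
  rcases hor with hj | hR
  · refine le_trans (Finset.sum_le_sum fun n _ => ?_) ((hT S).trans (le_add_of_nonneg_right zero_le_one))
    refine pow_le_pow_left₀ (mul_nonneg (wt_pos P s n).le (norm_nonneg _)) ?_ 2
    refine mul_le_mul_of_nonneg_right ?_ (norm_nonneg _)
    rw [wt_eq, hj]
    simpa [wt0] using hw0 n
  · have hR0 := P.R_pos
    have hT'R : T' / P.R ≤ 1 := (div_le_one hR0).2 hR
    calc ∑ n ∈ S, (wt P s n * ‖fc f n‖) ^ 2
        ≤ ∑ n ∈ S, (((1 + len n) ^ s * ‖fc f n‖) ^ 2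
          + ((1 + len n) ^ (s + P.j) * ‖fc f n‖) ^ 2 / P.R) := by
          refine Finset.sum_le_sum fun n _ => ?_
          have hl := len_nonneg n
          have h1 := base_pow_le hl P.one_le_R (P.j * 2)
          calc (wt P s n * ‖fc f n‖) ^ 2
              = (wt0 P.R0 s n * ‖fc f n‖) ^ 2 * (1 + len n / P.R) ^ (P.j * 2) := by
                rw [wt_eq, pow_mul]; simp only [wt0]; ring
            _ ≤ ((1 + len n) ^ s * ‖fc f n‖) ^ 2
                * (1 + (1 + len n) ^ (P.j * 2) / P.R) := by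
                refine mul_le_mul (pow_le_pow_left₀
                  (mul_nonneg (wt0_pos P.R0_pos.le _ _).le (norm_nonneg _))
                  (mul_le_mul_of_nonneg_right (hw0 n) (norm_nonneg _)) 2) (h1.trans ?_)
                  (by positivity) (by positivity)
                gcongr
                linarith
            _ = _ := by ring
      _ = ∑ n ∈ S, ((1 + len n) ^ s * ‖fc f n‖) ^ 2
          + (∑ n ∈ S, ((1 + len n) ^ (s + P.j) * ‖fc f n‖) ^ 2) / P.R := by
          rw [Finset.sum_add_distrib, Finset.sum_div]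
      _ ≤ T + 1 := add_le_add (hT S) (le_trans (div_le_div_of_nonneg_right (hT' S) hR0.le) hT'R)

end Vale.Agent.P205
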