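import Vale.Agent.P205.Space.Alg
import Vale.Agent.P205.Space.Smooth

/-!
# P205, multiplication by smooth matrices on the weighted spaces
-/

namespace Vale.Agent.P205

open Real MeasureTheory Finset
open scoped ContDiff ComplexConjugate

/-- The real mean over the unit square. -/
noncomputable def rmean (g : E2 → ℝ) : ℝ := ∫ x in (0 : ℝ)..1, ∫ y in (0 : ℝ)..1, g (x, y)

lemma continuous_rmean_inner {g : E2 → ℝ} (hg : Continuous g) :
    Continuous fun x : ℝ => ∫ y in (0 : ℝ)..1, g (x, y) :=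
  intervalIntegral.continuous_parametric_intervalIntegral_of_continuous' (f := fun x y => g (x, y))
    (by exact hg) 0 1

lemma rmean_mono {g h : E2 → ℝ} (hg : Continuous g) (hh : Continuous h) (hle : ∀ x, g x ≤ h x) :
    rmean g ≤ rmean h :=
  intervalIntegral.integral_mono_on zero_le_one ((continuous_rmean_inner hg).intervalIntegrable _ _)
    ((continuous_rmean_inner hh).intervalIntegrable _ _) fun _ _ =>
    intervalIntegral.integral_mono_on zero_le_one
      ((hg.comp (continuous_const.prodMk continuous_id)).intervalIntegrable _ _)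
      ((hh.comp (continuous_const.prodMk continuous_id)).intervalIntegrable _ _) fun _ _ => hle _

lemma rmean_add {g h : E2 → ℝ} (hg : Continuous g) (hh : Continuous h) :
    rmean (fun x => g x + h x) = rmean g + rmean h := by
  rw [rmean, rmean, rmean, ← intervalIntegral.integral_add
    ((continuous_rmean_inner hg).intervalIntegrable _ _) ((continuous_rmean_inner hh).intervalIntegrable _ _)]
  refine intervalIntegral.integral_congr fun x _ => ?_
  exact intervalIntegral.integral_add ((hg.comp (continuous_const.prodMk continuous_id)).intervalIntegrable _ _)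
    ((hh.comp (continuous_const.prodMk continuous_id)).intervalIntegrable _ _)

lemma rmean_const_mul (c : ℝ) (g : E2 → ℝ) : rmean (fun x => c * g x) = c * rmean g := by
  simp only [rmean, intervalIntegral.integral_const_mul]

lemma rmean_re {f : E2 → ℂ} (hf : Continuous f) : rmean (fun x => (f x).re) = (mean2 f).re := by
  rw [rmean, mean2, ← Complex.reCLM_apply, ← ContinuousLinearMap.intervalIntegral_comp_comm _
    ((continuous_mean_inner hf).intervalIntegrable _ _)]
  refine intervalIntegral.integral_congr fun x _ => ?_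
  exact ContinuousLinearMap.intervalIntegral_comp_comm Complex.reCLM
    ((hf.comp (continuous_const.prodMk continuous_id)).intervalIntegrable _ _)

lemma conj_chr (n : ℤ × ℤ) (x : E2) : conj (chr n x) = chr (-n) x := by
  rw [chr, chr, ← Complex.exp_conj]
  congr 1
  simp [Prod.fst_neg, Prod.snd_neg, map_ofNat]
  ring

/-- A trigonometric polynomial. -/
noncomputable def trig (c : Co) (S : Finset (ℤ × ℤ)) (x : E2) : ℂ := ∑ m ∈ S, c m * chr m x

lemma continuous_trig (c : Co) (S : Finset (ℤ × ℤ)) : Continuous (trig c S) :=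
  continuous_finsetSum S fun m _ => continuous_const.mul (continuous_chr m)

lemma mean2_conj_trig_mul (c : Co) (S : Finset (ℤ × ℤ)) {G : E2 → ℂ} (hG : Continuous G) :
    mean2 (fun x => conj (trig c S x) * G x) = ∑ n ∈ S, conj (c n) * fc G n := by
  have : (fun x => conj (trig c S x) * G x)
      = fun x => ∑ n ∈ S, conj (c n) * (chr (-n) x * G x) := by
    funext x
    simp only [trig, map_sum, map_mul, conj_chr, Finset.sum_mul, mul_assoc]
  rw [this, mean2_sum S (f := fun n x => conj (c n) * (chr (-n) x * G x))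
    (fun n => continuous_const.mul ((continuous_chr _).mul hG))]
  simp only [mean2_const_mul, fc_eq_mean2]

lemma re_conj_mul_self (z : ℂ) : (conj z * z).re = ‖z‖ ^ 2 := by
  rw [Complex.sq_norm, Complex.normSq_apply]
  simp

/-- Parseval for trigonometric polynomials. -/
lemma rmean_sq_trig (c : Co) (S : Finset (ℤ × ℤ)) :
    rmean (fun x => ‖trig c S x‖ ^ 2) = ∑ n ∈ S, ‖c n‖ ^ 2 := by
  have hc := continuous_trig c S
  simp only [← re_conj_mul_self]
  rw [rmean_re (f := fun x => conj (trig c S x) * trig c S x) (by fun_prop),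
    mean2_conj_trig_mul c S hc, Complex.re_sum]
  refine Finset.sum_congr rfl fun n hn => ?_
  rw [show fc (trig c S) n = c n from (fc_trig c S n).trans (if_pos hn)]

/-- Bessel's inequality. -/
lemma bessel {F : E2 → ℂ} (hF : Continuous F) (S : Finset (ℤ × ℤ)) :
    ∑ n ∈ S, ‖fc F n‖ ^ 2 ≤ rmean fun x => ‖F x‖ ^ 2 := by
  set p := trig (fc F) S with hp
  have hpc : Continuous p := continuous_trig _ _
  have h1 : rmean (fun x => (conj (p x) * F x).re) = ∑ n ∈ S, ‖fc F n‖ ^ 2 := by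
    rw [rmean_re (f := fun x => conj (p x) * F x) (by fun_prop), hp,
      mean2_conj_trig_mul _ S hF, Complex.re_sum]
    exact Finset.sum_congr rfl fun n _ => re_conj_mul_self _
  have hle : rmean (fun x => 2 * (conj (p x) * F x).re)
      ≤ rmean (fun x => ‖F x‖ ^ 2 + ‖p x‖ ^ 2) := by
    refine rmean_mono (by fun_prop) (by fun_prop) fun x => ?_
    have := sq_nonneg ‖F x - p x‖
    rw [Complex.sq_norm, Complex.normSq_sub] at this
    rw [Complex.sq_norm, Complex.sq_norm, mul_comm (conj (p x))]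
    linarith
  rw [rmean_const_mul, h1, rmean_add (by fun_prop) (by fun_prop), hp, rmean_sq_trig] at hle
  linarith

lemma fc_mul_chr (a : E2 → ℂ) (m n : ℤ × ℤ) : fc (fun x => a x * chr m x) n = fc a (n - m) := by
  rw [fc_eq_mean2, fc_eq_mean2]
  congr 1
  funext x
  rw [neg_sub, sub_eq_add_neg m n, chr_add]
  ring

lemma fc_mul_trig {a : E2 → ℂ} (ha : Continuous a) (d : Co) (T : Finset (ℤ × ℤ)) (n : ℤ × ℤ) :
    fc (fun x => a x * trig d T x) n = ∑ m ∈ T, fc a (n - m) * d m := by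
  have : (fun x => a x * trig d T x) = fun x => ∑ m ∈ T, d m * (a x * chr m x) := by
    funext x
    simp only [trig, Finset.mul_sum]
    exact Finset.sum_congr rfl fun m _ => by ring
  rw [this, fc_sum T (f := fun m x => d m * (a x * chr m x))
    (fun m => continuous_const.mul (ha.mul (continuous_chr m)))]
  refine Finset.sum_congr rfl fun m _ => ?_
  rw [fc_const_mul, fc_mul_chr, mul_comm]

/-- The bound by the supremum of the matrix norm, on trigonometric polynomials. -/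
lemma op_trig {a : Fin 2 → Fin 2 → E2 → ℂ} (ha : ∀ i k, Continuous (a i k)) {θ : ℝ}
    (hθ : ∀ x (v : Fin 2 → ℂ), ∑ i, ‖∑ k, a i k x * v k‖ ^ 2 ≤ θ ^ 2 * ∑ k, ‖v k‖ ^ 2)
    (d : Fin 2 → Co) (T S : Finset (ℤ × ℤ)) :
    ∑ i, ∑ n ∈ S, ‖∑ k, ∑ m ∈ T, fc (a i k) (n - m) * d k m‖ ^ 2
      ≤ θ ^ 2 * ∑ k, ∑ m ∈ T, ‖d k m‖ ^ 2 := by
  set F : Fin 2 → E2 → ℂ := fun i x => ∑ k, a i k x * trig (d k) T x with hF
  have hw : ∀ k, Continuous (trig (d k) T) := fun k => continuous_trig _ _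
  have hFc : ∀ i, Continuous (F i) := fun i =>
    continuous_finsetSum _ fun k _ => (ha i k).mul (hw k)
  have hfc : ∀ i n, fc (F i) n = ∑ k, ∑ m ∈ T, fc (a i k) (n - m) * d k m := fun i n => by
    rw [hF, fc_sum Finset.univ (f := fun k x => a i k x * trig (d k) T x)
      (fun k => (ha i k).mul (hw k))]
    exact Finset.sum_congr rfl fun k _ => fc_mul_trig (ha i k) _ _ _
  simp only [← hfc]
  calc ∑ i, ∑ n ∈ S, ‖fc (F i) n‖ ^ 2 ≤ ∑ i, rmean (fun x => ‖F i x‖ ^ 2) :=
        Finset.sum_le_sum fun i _ => bessel (hFc i) S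
    _ = rmean (fun x => ∑ i, ‖F i x‖ ^ 2) := by
        simp only [Fin.sum_univ_two]
        exact (rmean_add (g := fun x => ‖F 0 x‖ ^ 2) (h := fun x => ‖F 1 x‖ ^ 2)
          ((hFc 0).norm.pow 2) ((hFc 1).norm.pow 2)).symm
    _ ≤ rmean (fun x => θ ^ 2 * ∑ k, ‖trig (d k) T x‖ ^ 2) :=
        rmean_mono (continuous_finsetSum _ fun i _ => (hFc i).norm.pow 2)
          (continuous_const.mul (continuous_finsetSum _ fun k _ => (hw k).norm.pow 2))
          fun x => hθ x fun k => trig (d k) T x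
    _ = _ := by
        rw [rmean_const_mul]
        simp only [Fin.sum_univ_two]
        rw [rmean_add (g := fun x => ‖trig (d 0) T x‖ ^ 2) (h := fun x => ‖trig (d 1) T x‖ ^ 2)
          ((hw 0).norm.pow 2) ((hw 1).norm.pow 2), rmean_sq_trig, rmean_sq_trig]

lemma fc_weighted_summable {f : E2 → ℂ} (hf : ContDiff ℝ ∞ f) (hp : Per f) (q : ℕ) :
    Summable fun n => (1 + len n) ^ q * ‖fc f n‖ := by
  obtain ⟨D, hD⟩ := fc_decay (q + 4) f hf hp
  refine Summable.of_nonneg_of_le (fun n => ?_) (fun n => ?_)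
    ((summable_inv_wt0_sq (le_refl (1 : ℝ)) (le_refl 2)).mul_left D)
  · have := len_nonneg n
    positivity
  · have hb : 0 < 1 + len n := by linarith [len_nonneg n]
    rw [wt0, div_one, ← div_eq_mul_inv, le_div_iff₀ (by positivity)]
    refine le_trans (le_of_eq ?_) (hD n)
    ring

lemma abs_wt_sub_le (P : Par) (s : ℕ) (n m : ℤ × ℤ) :
    |wt P s n - wt P s m| ≤ (wt P s (n - m) - 1) * wt P s m := by
  have h1 : wt P s n ≤ wt P s (n - m) * wt P s m := by simpa using wt_add_le P s (n - m) m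
  have h2 : wt P s m ≤ wt P s (n - m) * wt P s n := by
    have := wt_add_le P s (-(n - m)) n
    rwa [wt_neg, neg_sub, sub_add_cancel] at this
  rw [abs_le, sub_one_mul]
  refine ⟨?_, by linarith⟩
  rcases le_total (wt P s m) (wt P s n) with h | h
  · linarith [le_mul_of_one_le_left (wt_pos P s m).le (one_le_wt P s (n - m))]
  · linarith [mul_le_mul_of_nonneg_left h (zero_le_one.trans (one_le_wt P s (n - m))), h2,
      mul_le_mul_of_nonneg_left h (sub_nonneg.2 (one_le_wt P s (n - m)))]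

lemma wt_sub_one_le (P : Par) (s : ℕ) (n : ℤ × ℤ) :
    wt P s n - 1 ≤ (1 + len n) ^ s / P.R0
      + if P.j = 0 then 0 else (1 + len n) ^ (s + P.j) / P.R := by
  have hl := len_nonneg n
  have h1 : wt0 P.R0 s n - 1 ≤ (1 + len n) ^ s / P.R0 := by
    have := base_pow_le hl P.one_le_R0 s
    have h : ((1 + len n) ^ s - 1) / P.R0 ≤ (1 + len n) ^ s / P.R0 :=
      div_le_div_of_nonneg_right (by linarith) P.R0_pos.le
    simp only [wt0]
    linarith
  rcases eq_or_ne P.j 0 with hj | hj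
  · rw [if_pos hj, add_zero, wt_eq, hj]
    simpa [wt0] using h1
  · rw [if_neg hj]
    have h2 : wt0 P.R P.j n - 1 ≤ (1 + len n) ^ P.j / P.R := by
      have := base_pow_le hl P.one_le_R P.j
      have h : ((1 + len n) ^ P.j - 1) / P.R ≤ (1 + len n) ^ P.j / P.R :=
        div_le_div_of_nonneg_right (by linarith) P.R_pos.le
      simp only [wt0]
      linarith
    have h3 : wt0 P.R0 s n ≤ (1 + len n) ^ s :=
      pow_le_pow_left₀ (zero_le_one.trans (one_le_base P.R0_pos.le n))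
        (by linarith [div_le_self hl P.one_le_R0]) s
    calc wt P s n - 1 = (wt0 P.R0 s n - 1) + wt0 P.R0 s n * (wt0 P.R P.j n - 1) := by
          rw [wt_eq]; ring
      _ ≤ (1 + len n) ^ s / P.R0 + (1 + len n) ^ s * ((1 + len n) ^ P.j / P.R) :=
          add_le_add h1 (mul_le_mul h3 h2 (sub_nonneg.2 (one_le_wt0 P.R_pos.le _ _)) (by positivity))
      _ = _ := by rw [pow_add]; ring

/-- The finite form of the operator bound. -/
lemma op_finite {P : Par} {s : ℕ} {a : Fin 2 → Fin 2 → E2 → ℂ} (ha : ∀ i k, Continuous (a i k))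
    {θ : ℝ} (hθ0 : 0 ≤ θ)
    (hθ : ∀ x (v : Fin 2 → ℂ), ∑ i, ‖∑ k, a i k x * v k‖ ^ 2 ≤ θ ^ 2 * ∑ k, ‖v k‖ ^ 2)
    {ε : Fin 2 → Fin 2 → ℝ} (hs : ∀ i k, Summable fun m => (wt P s m - 1) * ‖fc (a i k) m‖)
    (hε : ∀ i k, ∑' m, (wt P s m - 1) * ‖fc (a i k) m‖ ≤ ε i k)
    {c : Fin 2 → Co} {M : ℝ} (hM : 0 ≤ M)
    (hc : ∀ S : Finset (ℤ × ℤ), ∑ i, ∑ n ∈ S, (wt P s n * ‖c i n‖) ^ 2 ≤ M ^ 2)
    (T S : Finset (ℤ × ℤ)) :
    ∑ i, ∑ n ∈ S, (wt P s n * ‖∑ k, ∑ m ∈ T, fc (a i k) (n - m) * c k m‖) ^ 2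
      ≤ ((θ + ∑ i, ∑ k, ε i k) * M) ^ 2 := by
  classical
  have hW : ∀ n, 0 ≤ wt P s n := fun n => (wt_pos P s n).le
  set g : Fin 2 → Fin 2 → ℤ × ℤ → ℝ := fun i k m => (wt P s m - 1) * ‖fc (a i k) m‖ with hg
  have hg0 : ∀ i k m, 0 ≤ g i k m := fun i k m =>
    mul_nonneg (sub_nonneg.2 (one_le_wt P s m)) (norm_nonneg _)
  set x : Fin 2 → ℤ × ℤ → ℝ := fun k m => wt P s m * ‖c k m‖ with hx
  have hx0 : ∀ k m, 0 ≤ x k m := fun k m => mul_nonneg (hW m) (norm_nonneg _)
  have hxM : ∀ k (S : Finset (ℤ × ℤ)), ∑ n ∈ S, x k n ^ 2 ≤ M ^ 2 := fun k S =>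
    le_trans (Finset.single_le_sum (f := fun k => ∑ n ∈ S, x k n ^ 2)
      (fun k _ => Finset.sum_nonneg fun n _ => sq_nonneg _) (Finset.mem_univ k)) (hc S)
  have hε0 : ∀ i k, 0 ≤ ε i k := fun i k => (tsum_nonneg (hg0 i k)).trans (hε i k)
  set q : Fin 2 → ℤ × ℤ → ℝ :=
    fun i n => ‖∑ k, ∑ m ∈ T, fc (a i k) (n - m) * ((wt P s m : ℂ) * c k m)‖ with hq
  set r : Fin 2 → ℤ × ℤ → ℝ := fun i n => ∑ k, ∑' m, g i k m * x k (n - m) with hr
  have hY := fun i k => young (hg0 i k) (hs i k) (hx0 k) hM (hxM k)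
  have hqb : ∑ i, ∑ n ∈ S, q i n ^ 2 ≤ (θ * M) ^ 2 := by
    refine (op_trig ha hθ (fun k m => (wt P s m : ℂ) * c k m) T S).trans ?_
    rw [mul_pow]
    refine mul_le_mul_of_nonneg_left (le_trans (le_of_eq ?_) (hc T)) (sq_nonneg θ)
    refine Finset.sum_congr rfl fun k _ => Finset.sum_congr rfl fun m _ => ?_
    rw [norm_mul, Complex.norm_real, Real.norm_of_nonneg (hW m)]
  have hrb : ∑ i, ∑ n ∈ S, r i n ^ 2 ≤ ((∑ i, ∑ k, ε i k) * M) ^ 2 := by
    have h1 : ∀ i, ∑ n ∈ S, r i n ^ 2 ≤ ((∑ k, ε i k) * M) ^ 2 := fun i => by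
      simp only [hr, Fin.sum_univ_two, add_mul]
      refine sq_add_le S (mul_nonneg (hε0 _ _) hM) (mul_nonneg (hε0 _ _) hM) ?_ ?_
      · exact ((hY i 0).2 S).trans (pow_le_pow_left₀ (mul_nonneg (tsum_nonneg (hg0 _ _)) hM)
          (mul_le_mul_of_nonneg_right (hε i 0) hM) 2)
      · exact ((hY i 1).2 S).trans (pow_le_pow_left₀ (mul_nonneg (tsum_nonneg (hg0 _ _)) hM)
          (mul_le_mul_of_nonneg_right (hε i 1) hM) 2)
    refine (Finset.sum_le_sum fun i _ => h1 i).trans ?_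
    have e0 : 0 ≤ (∑ k, ε 0 k) * M := mul_nonneg (Finset.sum_nonneg fun k _ => hε0 _ k) hM
    have e1 : 0 ≤ (∑ k, ε 1 k) * M := mul_nonneg (Finset.sum_nonneg fun k _ => hε0 _ k) hM
    rw [Fin.sum_univ_two (f := fun i => ((∑ k, ε i k) * M) ^ 2),
      Fin.sum_univ_two (f := fun i => ∑ k, ε i k), add_mul (∑ k, ε 0 k)]
    nlinarith [mul_nonneg e0 e1]
  have hpt : ∀ i n,
      wt P s n * ‖∑ k, ∑ m ∈ T, fc (a i k) (n - m) * c k m‖ ≤ q i n + r i n := by
    intro i n
    rw [show wt P s n = ‖(wt P s n : ℂ)‖ by rw [Complex.norm_real, Real.norm_of_nonneg (hW n)],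
      ← norm_mul]
    refine (norm_le_norm_add_norm_sub' _
      (∑ k, ∑ m ∈ T, fc (a i k) (n - m) * ((wt P s m : ℂ) * c k m))).trans ?_
    refine add_le_add le_rfl ?_
    simp only [hr, Finset.mul_sum, ← Finset.sum_sub_distrib]
    refine (norm_sum_le _ _).trans (Finset.sum_le_sum fun k _ => (norm_sum_le _ _).trans ?_)
    rw [← tsum_sub_swap (x k) (g i k) n]
    have hsw : Summable fun m => x k m * g i k (n - m) :=
      ((Equiv.subLeft n).summable_iff.2 ((hY i k).1 n)).congr fun m => by simp [mul_comm]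
    refine le_trans (Finset.sum_le_sum fun m _ => ?_)
      (hsw.sum_le_tsum T fun m _ => mul_nonneg (hx0 _ _) (hg0 _ _ _))
    have he : (wt P s n : ℂ) * (fc (a i k) (n - m) * c k m)
        - fc (a i k) (n - m) * ((wt P s m : ℂ) * c k m)
        = ((wt P s n - wt P s m : ℝ) : ℂ) * (fc (a i k) (n - m) * c k m) := by
      push_cast; ring
    rw [he, norm_mul, norm_mul, Complex.norm_real, Real.norm_eq_abs]
    calc |wt P s n - wt P s m| * (‖fc (a i k) (n - m)‖ * ‖c k m‖)
        ≤ (wt P s (n - m) - 1) * wt P s m * (‖fc (a i k) (n - m)‖ * ‖c k m‖) :=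
          mul_le_mul_of_nonneg_right (abs_wt_sub_le P s n m) (by positivity)
      _ = _ := by simp only [hx, hg]; ring
  have hpos : ∀ i n, 0 ≤ wt P s n * ‖∑ k, ∑ m ∈ T, fc (a i k) (n - m) * c k m‖ := fun i n =>
    mul_nonneg (hW n) (norm_nonneg _)
  refine (Finset.sum_le_sum fun i _ => Finset.sum_le_sum fun n _ =>
    pow_le_pow_left₀ (hpos i n) (hpt i n) 2).trans ?_
  rw [add_mul, ← Finset.sum_product' (Finset.univ : Finset (Fin 2)) S fun i n => (q i n + r i n) ^ 2]
  refine sq_add_le _ (mul_nonneg hθ0 hM) (mul_nonneg (Finset.sum_nonneg fun i _ =>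
    Finset.sum_nonneg fun k _ => hε0 i k) hM) ?_ ?_
  · rw [Finset.sum_product' (Finset.univ : Finset (Fin 2)) S fun i n => q i n ^ 2]
    exact hqb
  · rw [Finset.sum_product' (Finset.univ : Finset (Fin 2)) S fun i n => r i n ^ 2]
    exact hrb

/-- Coefficients of a product as limits. -/
lemma tendsto_fc_mul {a v : E2 → ℂ} (ha : Continuous a) (hap : Per a) (hv : Continuous v)
    (hvp : Per v) (hvs : Summable fun n => ‖fc v n‖) (n : ℤ × ℤ) :
    Filter.Tendsto (fun T : Finset (ℤ × ℤ) => ∑ m ∈ T, fc a (n - m) * fc v m) Filter.atTop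
      (nhds (fc (fun x => a x * v x) n)) := by
  obtain ⟨K, hK⟩ := Per.exists_bound ha hap
  have hK0 : 0 ≤ K := (norm_nonneg _).trans (hK 0)
  rw [tendsto_iff_norm_sub_tendsto_zero]
  have h0 : Filter.Tendsto (fun T : Finset (ℤ × ℤ) =>
      K * (∑' m, ‖fc v m‖ - ∑ m ∈ T, ‖fc v m‖)) Filter.atTop (nhds 0) := by
    simpa using (((tendsto_const_nhds (x := ∑' m, ‖fc v m‖)).sub hvs.hasSum).const_mul K)
  refine squeeze_zero (fun T => norm_nonneg _) (fun T => ?_) h0
  rw [← fc_mul_trig ha, norm_sub_rev, ← fc_sub (f := fun x => a x * v x)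
    (h := fun x => a x * trig (fc v) T x) (ha.mul hv) (ha.mul (continuous_trig _ _))]
  refine fc_norm_le (fun x => ?_) n
  rw [← mul_sub, norm_mul]
  refine mul_le_mul (hK x) ?_ (norm_nonneg _) hK0
  have := ev_sub_trig_le hvs T x
  rwa [ev_fc hv hvp hvs] at this

/-- Multiplication by a smooth matrix. -/
theorem mulOp : MulOpStmt := by
  intro a ha θ θ' hθ0 hθθ hθ s hs
  have hac : ∀ i k, Continuous (a i k) := fun i k => (ha i k).1.continuous
  have hA : ∀ i k q, Summable fun n => (1 + len n) ^ q * ‖fc (a i k) n‖ := fun i k q =>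
    fc_weighted_summable (ha i k).1 (ha i k).2 q
  have hA0 : ∀ i k q, 0 ≤ ∑' n, (1 + len n) ^ q * ‖fc (a i k) n‖ := fun i k q =>
    tsum_nonneg fun n => mul_nonneg (pow_nonneg (by linarith [len_nonneg n]) q) (norm_nonneg _)
  set A := fun q => ∑ i, ∑ k, ∑' n, (1 + len n) ^ q * ‖fc (a i k) n‖ with hAdef
  have hδ : 0 < (θ' - θ) / 2 := half_pos (sub_pos.2 hθθ)
  refine ⟨max 1 (A s / ((θ' - θ) / 2)), fun R0 hR0 j =>
    ⟨A (s + j) / ((θ' - θ) / 2), fun P hP hj hor v M hv => ?_⟩⟩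
  subst hP hj
  obtain ⟨hcv, hM, hsum⟩ := hv
  set ε : Fin 2 → Fin 2 → ℝ := fun i k => (∑' n, (1 + len n) ^ s * ‖fc (a i k) n‖) / P.R0
    + if P.j = 0 then 0 else (∑' n, (1 + len n) ^ (s + P.j) * ‖fc (a i k) n‖) / P.R with hεdef
  have hg : ∀ i k, Summable (fun m => (wt P s m - 1) * ‖fc (a i k) m‖) ∧
      ∑' m, (wt P s m - 1) * ‖fc (a i k) m‖ ≤ ε i k := by
    intro i k
    have hb : HasSum (fun m => (1 + len m) ^ s * ‖fc (a i k) m‖ / P.R0
        + if P.j = 0 then 0 else (1 + len m) ^ (s + P.j) * ‖fc (a i k) m‖ / P.R) (ε i k) := by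
      refine ((hA i k s).hasSum.div_const _).add ?_
      by_cases h : P.j = 0
      · simp only [h, if_true]
        exact hasSum_zero
      · simp only [h, if_false]
        exact (hA i k _).hasSum.div_const _
    have hle : ∀ m, (wt P s m - 1) * ‖fc (a i k) m‖ ≤ (1 + len m) ^ s * ‖fc (a i k) m‖ / P.R0
        + if P.j = 0 then 0 else (1 + len m) ^ (s + P.j) * ‖fc (a i k) m‖ / P.R := fun m => by
      refine (mul_le_mul_of_nonneg_right (wt_sub_one_le P s m) (norm_nonneg _)).trans (le_of_eq ?_)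
      split_ifs <;> ring
    have hsm : Summable fun m => (wt P s m - 1) * ‖fc (a i k) m‖ :=
      Summable.of_nonneg_of_le (fun m => mul_nonneg (sub_nonneg.2 (one_le_wt P s m)) (norm_nonneg _))
        hle hb.summable
    exact ⟨hsm, (hsm.tsum_le_tsum hle hb.summable).trans (le_of_eq hb.tsum_eq)⟩
  have hεsum : θ + ∑ i, ∑ k, ε i k ≤ θ' := by
    have h1 : A s / P.R0 ≤ (θ' - θ) / 2 := by
      rw [div_le_iff₀ P.R0_pos, mul_comm, ← div_le_iff₀ hδ]
      exact (le_max_right _ _).trans hR0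
    have h2 : (if P.j = 0 then 0 else A (s + P.j) / P.R) ≤ (θ' - θ) / 2 := by
      split_ifs with h
      · exact hδ.le
      · rw [div_le_iff₀ P.R_pos, mul_comm, ← div_le_iff₀ hδ]
        exact hor.resolve_left h
    have he : ∑ i, ∑ k, ε i k = A s / P.R0 + if P.j = 0 then 0 else A (s + P.j) / P.R := by
      simp only [hεdef, hAdef, Fin.sum_univ_two]
      split_ifs <;> ring
    linarith
  have hl1 : ∀ k, Summable fun n => ‖fc (v k) n‖ := fun k =>
    ((show Bd P s (fc (v k)) M from ⟨hM, fun S => le_trans (Finset.single_le_sum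
      (f := fun k => ∑ n ∈ S, (wt P s n * ‖fc (v k) n‖) ^ 2)
      (fun k _ => Finset.sum_nonneg fun n _ => sq_nonneg _) (Finset.mem_univ k)) (hsum S)⟩).l1
      (by omega)).1
  refine ⟨fun i => ⟨continuous_finsetSum _ fun k _ => (hac i k).mul (hcv k).1,
    fun x p q => Finset.sum_congr rfl fun k _ => by rw [(ha i k).2 x p q, (hcv k).2 x p q]⟩,
    mul_nonneg (hθ0.trans hθθ.le) hM, fun S => ?_⟩
  have hlim : Filter.Tendsto (fun T : Finset (ℤ × ℤ) => ∑ i, ∑ n ∈ S,
      (wt P s n * ‖∑ k, ∑ m ∈ T, fc (a i k) (n - m) * fc (v k) m‖) ^ 2) Filter.atTop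
      (nhds (∑ i, ∑ n ∈ S, (wt P s n * ‖fc (fun x => ∑ k, a i k x * v k x) n‖) ^ 2)) := by
    refine tendsto_finsetSum _ fun i _ => tendsto_finsetSum S fun n _ => ?_
    refine ((Filter.Tendsto.norm ?_).const_mul _).pow 2
    rw [fc_sum Finset.univ (f := fun k x => a i k x * v k x) fun k => (hac i k).mul (hcv k).1]
    exact tendsto_finsetSum _ fun k _ =>
      tendsto_fc_mul (hac i k) (ha i k).2 (hcv k).1 (hcv k).2 (hl1 k) n
  refine le_of_tendsto hlim (Filter.Eventually.of_forall fun T => ?_)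
  refine (op_finite (c := fun k => fc (v k)) hac hθ0 hθ (fun i k => (hg i k).1)
    (fun i k => (hg i k).2) hM hsum T S).trans ?_
  refine pow_le_pow_left₀ (mul_nonneg (add_nonneg hθ0 (Finset.sum_nonneg fun i _ =>
    Finset.sum_nonneg fun k _ => (tsum_nonneg fun m => mul_nonneg (sub_nonneg.2 (one_le_wt P s m))
      (norm_nonneg _)).trans (hg i k).2)) hM) ?_ 2
  exact mul_le_mul_of_nonneg_right hεsum hM

end Vale.Agent.P205
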