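import Vale.Agent.P205.Space.Eval

/-!
# P205, multipliers and completeness
-/

namespace Vale.Agent.P205

open Real MeasureTheory Finset
open scoped ContDiff

lemma Bd.multiplier {P : Par} {s t : ℕ} {c : Co} {M K : ℝ} (h : Bd P s c M) (σ : ℤ × ℤ → ℂ)
    (hK : 0 ≤ K) (hσ : ∀ n, ‖σ n‖ * wt P t n ≤ K * wt P s n) :
    Bd P t (fun n => σ n * c n) (K * M) := by
  refine ⟨mul_nonneg hK h.1, fun S => ?_⟩
  rw [mul_pow]
  refine le_trans ?_ (mul_le_mul_of_nonneg_left (h.2 S) (sq_nonneg K))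
  rw [Finset.mul_sum]
  refine Finset.sum_le_sum fun n _ => ?_
  rw [← mul_pow]
  refine pow_le_pow_left₀ (mul_nonneg (wt_pos P t n).le (norm_nonneg _)) ?_ 2
  rw [norm_mul, ← mul_assoc, ← mul_assoc, mul_comm (wt P t n)]
  exact mul_le_mul_of_nonneg_right (hσ n) (norm_nonneg _)

/-- Multipliers. -/
theorem multStmt : MultStmt := by
  intro P s t ht σ K hK hσ f M hf
  exact (hf.2.2.multiplier σ hK hσ).nb_ev (by omega)

end Vale.Agent.P205
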