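import Vale.Agent.P205.Space.Eval

/-!
# P205, products
-/

namespace Vale.Agent.P205

open Real MeasureTheory Finset
open scoped ContDiff

lemma sq_shift_le {x : ℤ × ℤ → ℝ} {M : ℝ} (h : ∀ S : Finset (ℤ × ℤ), ∑ n ∈ S, x n ^ 2 ≤ M ^ 2)
    (m : ℤ × ℤ) (S : Finset (ℤ × ℤ)) : ∑ n ∈ S, x (n - m) ^ 2 ≤ M ^ 2 := by
  have := h (S.map ⟨fun n => n - m, sub_left_injective⟩)
  rw [Finset.sum_map] at this
  exact this

/-- Young's inequality, finite form. -/
lemma young_fin {g x : ℤ × ℤ → ℝ} {M : ℝ} (hg : ∀ m, 0 ≤ g m) (hM : 0 ≤ M)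
    (h : ∀ S : Finset (ℤ × ℤ), ∑ n ∈ S, x n ^ 2 ≤ M ^ 2) (T S : Finset (ℤ × ℤ)) :
    ∑ n ∈ S, (∑ m ∈ T, g m * x (n - m)) ^ 2 ≤ ((∑ m ∈ T, g m) * M) ^ 2 := by
  classical
  induction T using Finset.induction with
  | empty => simp
  | @insert a T ha ih =>
    simp only [Finset.sum_insert ha, add_mul]
    refine sq_add_le S (mul_nonneg (hg a) hM)
      (mul_nonneg (Finset.sum_nonneg fun m _ => hg m) hM) ?_ ih
    simp only [mul_pow, ← Finset.mul_sum]
    exact mul_le_mul_of_nonneg_left (sq_shift_le h a S) (sq_nonneg _)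

/-- Young's inequality. -/
lemma young {g x : ℤ × ℤ → ℝ} {M : ℝ} (hg : ∀ m, 0 ≤ g m) (hgs : Summable g) (hx : ∀ n, 0 ≤ x n)
    (hM : 0 ≤ M) (h : ∀ S : Finset (ℤ × ℤ), ∑ n ∈ S, x n ^ 2 ≤ M ^ 2) :
    (∀ n, Summable fun m => g m * x (n - m)) ∧
      ∀ S : Finset (ℤ × ℤ), ∑ n ∈ S, (∑' m, g m * x (n - m)) ^ 2 ≤ ((∑' m, g m) * M) ^ 2 := by
  have hs : ∀ n, Summable fun m => g m * x (n - m) := fun n => by
    refine Summable.of_nonneg_of_le (fun m => mul_nonneg (hg m) (hx _)) (fun m => ?_)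
      (hgs.mul_right M)
    refine mul_le_mul_of_nonneg_left ?_ (hg m)
    exact (sq_le_sq₀ (hx _) hM).1 (by simpa using h {n - m})
  refine ⟨hs, fun S => ?_⟩
  refine le_of_tendsto_of_tendsto (tendsto_finsetSum S fun n _ => (hs n).hasSum.pow 2)
    ((hgs.hasSum.mul_const M).pow 2) (Filter.Eventually.of_forall fun T => ?_)
  exact young_fin hg hM h T S

lemma tsum_sub_swap (a b : ℤ × ℤ → ℝ) (n : ℤ × ℤ) :
    ∑' m, a m * b (n - m) = ∑' m, b m * a (n - m) := by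
  rw [← (Equiv.subLeft n).tsum_eq]
  exact tsum_congr fun m => by simp [mul_comm]

lemma wt_le_two_pow (P : Par) (s : ℕ) (n m : ℤ × ℤ) :
    wt P s n ≤ 2 ^ s * (wt P s m * wt0 P.R P.j (n - m) + wt0 P.R P.j m * wt P s (n - m)) := by
  have h0 := P.R0_pos.le
  have hp : ∀ k, 0 < wt0 P.R0 s k := wt0_pos h0 s
  have hJ : ∀ k, 0 < wt0 P.R P.j k := wt0_pos P.R_pos.le P.j
  have hbase : 1 + len n / P.R0 ≤ 2 * max (1 + len m / P.R0) (1 + len (n - m) / P.R0) := by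
    have h1 : len n / P.R0 ≤ len m / P.R0 + len (n - m) / P.R0 := by
      rw [← add_div]
      refine div_le_div_of_nonneg_right ?_ h0
      simpa using len_add_le m (n - m)
    linarith [le_max_left (1 + len m / P.R0) (1 + len (n - m) / P.R0),
      le_max_right (1 + len m / P.R0) (1 + len (n - m) / P.R0)]
  have hw : wt0 P.R0 s n ≤ 2 ^ s * (wt0 P.R0 s m + wt0 P.R0 s (n - m)) := by
    refine (pow_le_pow_left₀ (zero_le_one.trans (one_le_base h0 n)) hbase s).trans ?_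
    rw [mul_pow]
    refine mul_le_mul_of_nonneg_left ?_ (by positivity)
    rcases max_choice (1 + len m / P.R0) (1 + len (n - m) / P.R0) with h | h <;> rw [h]
    · exact le_add_of_nonneg_right (hp _).le
    · exact le_add_of_nonneg_left (hp _).le
  have hj : wt0 P.R P.j n ≤ wt0 P.R P.j m * wt0 P.R P.j (n - m) := by
    simpa using wt0_add_le P.R_pos.le P.j m (n - m)
  rw [wt_eq, wt_eq, wt_eq]
  calc wt0 P.R0 s n * wt0 P.R P.j n
      ≤ 2 ^ s * (wt0 P.R0 s m + wt0 P.R0 s (n - m)) * (wt0 P.R P.j m * wt0 P.R P.j (n - m)) :=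
        mul_le_mul hw hj (hJ _).le (mul_nonneg (by positivity) (add_pos (hp _) (hp _)).le)
    _ = _ := by ring

/-- The convolution bound. -/
lemma Bd.cv {P : Par} {s : ℕ} {a b : Co} {M N : ℝ} (ha : Bd P s a M) (hb : Bd P s b N)
    (hs : 2 ≤ s) :
    (∀ n, Summable fun m => ‖a m‖ * ‖b (n - m)‖) ∧
      Bd P s (P205.cv a b)
        (2 ^ s * (2 * Real.sqrt (∑' n, ((wt0 P.R0 s n) ^ 2)⁻¹)) * M * N) := by
  set C := Real.sqrt (∑' n, ((wt0 P.R0 s n) ^ 2)⁻¹) with hC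
  have hJ : ∀ k, 0 ≤ wt0 P.R P.j k := fun k => (wt0_pos P.R_pos.le P.j k).le
  have hW : ∀ k, 0 ≤ wt P s k := fun k => (wt_pos P s k).le
  have hA := ha.summable_mul hs zero_le_one _ hJ fun n => by rw [one_mul, wt_eq, mul_comm]
  have hB := hb.summable_mul hs zero_le_one _ hJ fun n => by rw [one_mul, wt_eq, mul_comm]
  rw [one_mul] at hA hB
  have hgA : ∀ k, 0 ≤ wt0 P.R P.j k * ‖a k‖ := fun k => mul_nonneg (hJ k) (norm_nonneg _)
  have hgB : ∀ k, 0 ≤ wt0 P.R P.j k * ‖b k‖ := fun k => mul_nonneg (hJ k) (norm_nonneg _)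
  obtain ⟨hs1, hy1⟩ := young hgB hB.1 (fun k => mul_nonneg (hW k) (norm_nonneg (a k))) ha.1 ha.2
  obtain ⟨hs2, hy2⟩ := young hgA hA.1 (fun k => mul_nonneg (hW k) (norm_nonneg (b k))) hb.1 hb.2
  have hs1' : ∀ n, Summable fun m =>
      wt P s m * ‖a m‖ * (wt0 P.R P.j (n - m) * ‖b (n - m)‖) := fun n => by
    refine ((Equiv.subLeft n).summable_iff.2 (hs1 n)).congr fun m => ?_
    simp [mul_comm]
  have hsum : ∀ n, Summable fun m => ‖a m‖ * ‖b (n - m)‖ := fun n => by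
    refine Summable.of_nonneg_of_le (fun m => mul_nonneg (norm_nonneg _) (norm_nonneg _))
      (fun m => ?_) ((ha.l1 hs).1.mul_right N)
    exact mul_le_mul_of_nonneg_left (hb.norm_le _) (norm_nonneg _)
  refine ⟨hsum, mul_nonneg (mul_nonneg (by positivity) ha.1) hb.1, fun S => ?_⟩
  have hpt : ∀ n, wt P s n * ‖P205.cv a b n‖ ≤ 2 ^ s *
      ((∑' m, wt0 P.R P.j m * ‖b m‖ * (wt P s (n - m) * ‖a (n - m)‖))
        + ∑' m, wt0 P.R P.j m * ‖a m‖ * (wt P s (n - m) * ‖b (n - m)‖)) := by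
    intro n
    rw [← tsum_sub_swap (fun m => wt P s m * ‖a m‖) (fun m => wt0 P.R P.j m * ‖b m‖),
      ← (hs1' n).tsum_add (hs2 n), ← tsum_mul_left]
    refine (mul_le_mul_of_nonneg_left (norm_tsum_le_tsum_norm (by simpa using hsum n)) (hW n)).trans ?_
    rw [← tsum_mul_left]
    refine Summable.tsum_le_tsum (fun m => ?_) (by simpa using (hsum n).mul_left (wt P s n))
      (((hs1' n).add (hs2 n)).mul_left _)
    rw [norm_mul]
    calc wt P s n * (‖a m‖ * ‖b (n - m)‖)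
        ≤ 2 ^ s * (wt P s m * wt0 P.R P.j (n - m) + wt0 P.R P.j m * wt P s (n - m))
          * (‖a m‖ * ‖b (n - m)‖) :=
          mul_le_mul_of_nonneg_right (wt_le_two_pow P s n m) (by positivity)
      _ = _ := by ring
  calc ∑ n ∈ S, (wt P s n * ‖P205.cv a b n‖) ^ 2
      ≤ ∑ n ∈ S, (2 ^ s *
      ((∑' m, wt0 P.R P.j m * ‖b m‖ * (wt P s (n - m) * ‖a (n - m)‖))
        + ∑' m, wt0 P.R P.j m * ‖a m‖ * (wt P s (n - m) * ‖b (n - m)‖))) ^ 2 :=
        Finset.sum_le_sum fun n _ =>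
          pow_le_pow_left₀ (mul_nonneg (hW n) (norm_nonneg _)) (hpt n) 2
    _ ≤ (2 ^ s) ^ 2 * (C * N * M + C * M * N) ^ 2 := by
        simp only [mul_pow, ← Finset.mul_sum]
        refine mul_le_mul_of_nonneg_left ?_ (by positivity)
        refine sq_add_le S (mul_nonneg (mul_nonneg (Real.sqrt_nonneg _) hb.1) ha.1)
          (mul_nonneg (mul_nonneg (Real.sqrt_nonneg _) ha.1) hb.1) ?_ ?_
        · exact (hy1 S).trans (pow_le_pow_left₀ (mul_nonneg (tsum_nonneg hgB) ha.1)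
            (mul_le_mul_of_nonneg_right hB.2 ha.1) 2)
        · exact (hy2 S).trans (pow_le_pow_left₀ (mul_nonneg (tsum_nonneg hgA) hb.1)
            (mul_le_mul_of_nonneg_right hA.2 hb.1) 2)
    _ = _ := by ring

lemma ev_mul {a b : Co} (ha : Summable fun n => ‖a n‖) (hb : Summable fun n => ‖b n‖) (x : E2) :
    ev a x * ev b x = ev (cv a b) x := by
  have ha' : Summable fun n => ‖a n * chr n x‖ := ha.congr fun n => by simp [norm_chr]
  have hb' : Summable fun n => ‖b n * chr n x‖ := hb.congr fun n => by simp [norm_chr]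
  have hp := summable_mul_of_summable_norm ha' hb'
  let σ : (ℤ × ℤ) × (ℤ × ℤ) ≃ (ℤ × ℤ) × (ℤ × ℤ) :=
    { toFun := fun p => (p.2, p.1 - p.2)
      invFun := fun p => (p.1 + p.2, p.1)
      left_inv := fun p => by simp
      right_inv := fun p => by simp }
  have hσ := σ.summable_iff.2 hp
  rw [ev, ev, tsum_mul_tsum_of_summable_norm ha' hb', ← σ.tsum_eq]
  refine (hσ.tsum_prod).trans (tsum_congr fun n => ?_)
  rw [cv, ← tsum_mul_right]
  refine tsum_congr fun m => ?_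
  show a m * chr m x * (b (n - m) * chr (n - m) x) = a m * b (n - m) * chr n x
  conv_rhs => rw [show n = m + (n - m) by simp, chr_add]
  simp only [add_sub_cancel]
  ring

lemma Nb.mul {P : Par} {s : ℕ} {f h : E2 → ℂ} {M N : ℝ} (hf : Nb P s f M) (hh : Nb P s h N)
    (hs : 2 ≤ s) : Nb P s (fun x => f x * h x)
      (2 ^ s * (2 * Real.sqrt (∑' n, ((wt0 P.R0 s n) ^ 2)⁻¹)) * M * N) := by
  obtain ⟨-, hc⟩ := hf.2.2.cv hh.2.2 hs
  have he : (fun x => f x * h x) = ev (cv (fc f) (fc h)) := by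
    funext x
    rw [← ev_mul (hf.2.2.l1 hs).1 (hh.2.2.l1 hs).1, hf.ev_eq hs, hh.ev_eq hs]
  rw [he]
  exact hc.nb_ev hs

/-- Products. -/
theorem alg : AlgStmt := by
  intro R0 _ s hs
  refine ⟨2 ^ s * (2 * Real.sqrt (∑' n, ((wt0 R0 s n) ^ 2)⁻¹)), fun P hP f h M N hf hh => ?_⟩
  subst hP
  exact hf.mul hh (by omega)

end Vale.Agent.P205
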