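import Vale.Agent.P205.Interfaces

/-!
# P205, weighted coefficient spaces: elementary facts
-/

namespace Vale.Agent.P205

open Real MeasureTheory Finset
open scoped ContDiff

lemma len_nonneg (n : ℤ × ℤ) : 0 ≤ len n := add_nonneg (abs_nonneg _) (abs_nonneg _)

lemma len_add_le (n m : ℤ × ℤ) : len (n + m) ≤ len n + len m := by
  have h1 := abs_add_le (n.1 : ℝ) (m.1 : ℝ)
  have h2 := abs_add_le (n.2 : ℝ) (m.2 : ℝ)
  simp only [len, Prod.fst_add, Prod.snd_add, Int.cast_add]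
  linarith

lemma len_neg (n : ℤ × ℤ) : len (-n) = len n := by simp [len]

lemma len_zero : len 0 = 0 := by simp [len]

lemma Par.R0_pos (P : Par) : 0 < P.R0 := lt_of_lt_of_le one_pos P.one_le_R0

lemma Par.R_pos (P : Par) : 0 < P.R := lt_of_lt_of_le P.R0_pos P.R0_le

lemma Par.one_le_R (P : Par) : 1 ≤ P.R := P.one_le_R0.trans P.R0_le

/-- The first factor of the weight. -/
noncomputable def wt0 (R0 : ℝ) (s : ℕ) (n : ℤ × ℤ) : ℝ := (1 + len n / R0) ^ s

lemma one_le_base {r : ℝ} (hr : 0 ≤ r) (n : ℤ × ℤ) : 1 ≤ 1 + len n / r :=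
  le_add_of_nonneg_right (div_nonneg (len_nonneg n) hr)

lemma wt_eq (P : Par) (s : ℕ) (n : ℤ × ℤ) : wt P s n = wt0 P.R0 s n * wt0 P.R P.j n := rfl

lemma one_le_wt0 {r : ℝ} (hr : 0 ≤ r) (s : ℕ) (n : ℤ × ℤ) : 1 ≤ wt0 r s n :=
  one_le_pow₀ (one_le_base hr n)

lemma wt0_pos {r : ℝ} (hr : 0 ≤ r) (s : ℕ) (n : ℤ × ℤ) : 0 < wt0 r s n :=
  zero_lt_one.trans_le (one_le_wt0 hr s n)

lemma wt0_add_le {r : ℝ} (hr : 0 ≤ r) (s : ℕ) (n m : ℤ × ℤ) :
    wt0 r s (n + m) ≤ wt0 r s n * wt0 r s m := by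
  rw [wt0, wt0, wt0, ← mul_pow]
  refine pow_le_pow_left₀ (zero_le_one.trans (one_le_base hr _)) ?_ s
  have h1 : len (n + m) / r ≤ len n / r + len m / r := by
    rw [← add_div]; exact div_le_div_of_nonneg_right (len_add_le n m) hr
  have h2 : 0 ≤ len n / r * (len m / r) :=
    mul_nonneg (div_nonneg (len_nonneg n) hr) (div_nonneg (len_nonneg m) hr)
  calc 1 + len (n + m) / r ≤ 1 + (len n / r + len m / r) + len n / r * (len m / r) := by linarith
    _ = _ := by ring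

lemma wt0_neg (r : ℝ) (s : ℕ) (n : ℤ × ℤ) : wt0 r s (-n) = wt0 r s n := by simp [wt0, len_neg]

lemma one_le_wt (P : Par) (s : ℕ) (n : ℤ × ℤ) : 1 ≤ wt P s n :=
  one_le_mul_of_one_le_of_one_le (one_le_wt0 P.R0_pos.le s n) (one_le_wt0 P.R_pos.le P.j n)

lemma wt_pos (P : Par) (s : ℕ) (n : ℤ × ℤ) : 0 < wt P s n := zero_lt_one.trans_le (one_le_wt P s n)

lemma wt_add_le (P : Par) (s : ℕ) (n m : ℤ × ℤ) : wt P s (n + m) ≤ wt P s n * wt P s m := by
  rw [wt_eq, wt_eq, wt_eq, mul_mul_mul_comm]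
  exact mul_le_mul (wt0_add_le P.R0_pos.le s n m) (wt0_add_le P.R_pos.le P.j n m)
    (wt0_pos P.R_pos.le _ _).le (mul_nonneg (wt0_pos P.R0_pos.le _ _).le (wt0_pos P.R0_pos.le _ _).le)

lemma wt_neg (P : Par) (s : ℕ) (n : ℤ × ℤ) : wt P s (-n) = wt P s n := by
  simp [wt_eq, wt0_neg]

lemma wt_mono (P : Par) {s t : ℕ} (h : s ≤ t) (n : ℤ × ℤ) : wt P s n ≤ wt P t n := by
  rw [wt_eq, wt_eq]
  exact mul_le_mul_of_nonneg_right (pow_le_pow_right₀ (one_le_base P.R0_pos.le n) h)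
    (wt0_pos P.R_pos.le _ _).le

/-- A product bound giving summability over the lattice. -/
lemma summable_inv_sq : Summable fun n : ℤ => ((1 + |(n : ℝ)|) ^ 2)⁻¹ := by
  have h : Summable fun n : ℕ => ((1 + (n : ℝ)) ^ 2)⁻¹ := by
    have := (Real.summable_nat_pow_inv (p := 2)).2 one_lt_two
    refine ((summable_nat_add_iff 1).2 this).congr fun n => ?_
    push_cast
    ring_nf
  refine Summable.of_nat_of_neg (h.congr fun n => by simp) (h.congr fun n => by simp)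

lemma summable_inv_wt0_sq {R0 : ℝ} (hR : 1 ≤ R0) {s : ℕ} (hs : 2 ≤ s) :
    Summable fun n : ℤ × ℤ => ((wt0 R0 s n) ^ 2)⁻¹ := by
  have hR0 : 0 < R0 := lt_of_lt_of_le one_pos hR
  have h := (summable_inv_sq.mul_of_nonneg summable_inv_sq (fun n => by positivity)
    (fun n => by positivity)).mul_left (R0 ^ 4)
  refine Summable.of_nonneg_of_le (fun n => inv_nonneg.2 (sq_nonneg _)) (fun n => ?_) h
  set a := 1 + |(n.1 : ℝ)| with ha
  set b := 1 + |(n.2 : ℝ)| with hb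
  have ha0 : 0 < a := by positivity
  have hb0 : 0 < b := by positivity
  set L := 1 + len n / R0 with hL
  have hL1 : 1 ≤ L := one_le_base hR0.le n
  have haL : a ≤ R0 * L := by
    rw [hL, mul_add, mul_div_cancel₀ _ hR0.ne', ha, len]; linarith [abs_nonneg (n.2 : ℝ)]
  have hbL : b ≤ R0 * L := by
    rw [hL, mul_add, mul_div_cancel₀ _ hR0.ne', hb, len]; linarith [abs_nonneg (n.1 : ℝ)]
  have h4 : a ^ 2 * b ^ 2 ≤ R0 ^ 4 * (wt0 R0 s n) ^ 2 := by
    calc a ^ 2 * b ^ 2 ≤ (R0 * L) ^ 2 * (R0 * L) ^ 2 := by gcongr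
      _ = R0 ^ 4 * (L ^ 2) ^ 2 := by ring
      _ ≤ _ := by
        gcongr
        exact pow_le_pow_right₀ hL1 hs
  rw [← mul_inv, ← div_eq_mul_inv, le_div_iff₀ (by positivity),
    inv_mul_le_iff₀ (pow_pos (wt0_pos hR0.le _ _) 2), mul_comm _ (R0 ^ 4)]
  exact h4

/-- The triangle inequality for finite square sums. -/
lemma sq_add_le {ι : Type*} (S : Finset ι) {x y : ι → ℝ} {A B : ℝ}
    (hA : 0 ≤ A) (hB : 0 ≤ B) (h1 : ∑ i ∈ S, x i ^ 2 ≤ A ^ 2) (h2 : ∑ i ∈ S, y i ^ 2 ≤ B ^ 2) :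
    ∑ i ∈ S, (x i + y i) ^ 2 ≤ (A + B) ^ 2 := by
  have hxy : ∑ i ∈ S, x i * y i ≤ A * B :=
    (Real.sum_mul_le_sqrt_mul_sqrt S x y).trans (mul_le_mul
      ((Real.sqrt_le_iff).2 ⟨hA, h1⟩) ((Real.sqrt_le_iff).2 ⟨hB, h2⟩) (Real.sqrt_nonneg _) hA)
  calc ∑ i ∈ S, (x i + y i) ^ 2
      = ∑ i ∈ S, x i ^ 2 + 2 * ∑ i ∈ S, x i * y i + ∑ i ∈ S, y i ^ 2 := by
        rw [Finset.mul_sum, ← Finset.sum_add_distrib, ← Finset.sum_add_distrib]
        exact Finset.sum_congr rfl fun i _ => by ring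
    _ ≤ _ := by linarith [show (A + B) ^ 2 = A ^ 2 + 2 * (A * B) + B ^ 2 by ring]

namespace Bd

variable {P : Par} {s : ℕ} {a b c : Co} {M N : ℝ}

lemma mono (h : Bd P s c M) (hM : M ≤ N) : Bd P s c N :=
  ⟨h.1.trans hM, fun S => (h.2 S).trans (pow_le_pow_left₀ h.1 hM 2)⟩

lemma point (h : Bd P s c M) (n : ℤ × ℤ) : wt P s n * ‖c n‖ ≤ M := by
  have := h.2 {n}
  rw [Finset.sum_singleton] at this
  exact (sq_le_sq₀ (mul_nonneg (wt_pos P s n).le (norm_nonneg _)) h.1).1 this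

lemma norm_le (h : Bd P s c M) (n : ℤ × ℤ) : ‖c n‖ ≤ M :=
  le_trans (le_mul_of_one_le_left (norm_nonneg _) (one_le_wt P s n)) (h.point n)

lemma add (ha : Bd P s a M) (hb : Bd P s b N) : Bd P s (fun n => a n + b n) (M + N) := by
  refine ⟨add_nonneg ha.1 hb.1, fun S => le_trans (Finset.sum_le_sum fun n _ => ?_)
    (sq_add_le S ha.1 hb.1 (ha.2 S)
      (hb.2 S))⟩
  refine pow_le_pow_left₀ (mul_nonneg (wt_pos P s n).le (norm_nonneg _)) ?_ 2
  rw [← mul_add]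
  exact mul_le_mul_of_nonneg_left (norm_add_le _ _) (wt_pos P s n).le

lemma neg (h : Bd P s c M) : Bd P s (fun n => -c n) M :=
  ⟨h.1, fun S => by simpa using h.2 S⟩

lemma of_norm_le (h : Bd P s c M) (hab : ∀ n, ‖a n‖ ≤ ‖c n‖) : Bd P s a M :=
  ⟨h.1, fun S => le_trans (Finset.sum_le_sum fun n _ => pow_le_pow_left₀
    (mul_nonneg (wt_pos P s n).le (norm_nonneg _))
    (mul_le_mul_of_nonneg_left (hab n) (wt_pos P s n).le) 2) (h.2 S)⟩

/-- A weight majorised by `wt / wt0 t` turns square bounds into absolute summability. -/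
lemma summable_mul (h : Bd P s c M) {t : ℕ} (ht : 2 ≤ t) {K : ℝ} (hK : 0 ≤ K) (f : ℤ × ℤ → ℝ)
    (hf0 : ∀ n, 0 ≤ f n) (hf : ∀ n, f n * wt0 P.R0 t n ≤ K * wt P s n) :
    Summable (fun n => f n * ‖c n‖) ∧
      ∑' n, f n * ‖c n‖ ≤ K * Real.sqrt (∑' n, ((wt0 P.R0 t n) ^ 2)⁻¹) * M := by
  set x := fun n => (wt0 P.R0 t n)⁻¹
  set y := fun n => wt P s n * ‖c n‖
  have hw : ∀ n, 0 < wt0 P.R0 t n := wt0_pos P.R0_pos.le t
  have hS : Summable fun n => ((wt0 P.R0 t n) ^ 2)⁻¹ := summable_inv_wt0_sq P.one_le_R0 ht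
  have hfin : ∀ S : Finset (ℤ × ℤ),
      ∑ n ∈ S, f n * ‖c n‖ ≤ K * Real.sqrt (∑' n, ((wt0 P.R0 t n) ^ 2)⁻¹) * M := by
    intro S
    calc ∑ n ∈ S, f n * ‖c n‖ ≤ ∑ n ∈ S, K * (x n * y n) := by
          refine Finset.sum_le_sum fun n _ => ?_
          have := mul_le_mul_of_nonneg_left (hf n)
            (mul_nonneg (inv_nonneg.2 (hw n).le) (norm_nonneg (c n)))
          calc f n * ‖c n‖ = (wt0 P.R0 t n)⁻¹ * ‖c n‖ * (f n * wt0 P.R0 t n) := by
                field_simp [(hw n).ne']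
            _ ≤ _ := this
            _ = _ := by ring
      _ = K * ∑ n ∈ S, x n * y n := (Finset.mul_sum _ _ _).symm
      _ ≤ K * (Real.sqrt (∑ n ∈ S, x n ^ 2) * Real.sqrt (∑ n ∈ S, y n ^ 2)) :=
          mul_le_mul_of_nonneg_left (Real.sum_mul_le_sqrt_mul_sqrt S x y) hK
      _ ≤ K * (Real.sqrt (∑' n, ((wt0 P.R0 t n) ^ 2)⁻¹) * M) := by
          refine mul_le_mul_of_nonneg_left (mul_le_mul (Real.sqrt_le_sqrt ?_)
            ((Real.sqrt_le_iff).2 ⟨h.1, h.2 S⟩) (Real.sqrt_nonneg _) (Real.sqrt_nonneg _)) hK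
          simp only [x, inv_pow]
          exact hS.sum_le_tsum S fun n _ => inv_nonneg.2 (sq_nonneg _)
      _ = _ := (mul_assoc _ _ _).symm
  have hsum := summable_of_sum_le (fun n => mul_nonneg (hf0 n) (norm_nonneg (c n))) hfin
  exact ⟨hsum, hsum.tsum_le_of_sum_le hfin⟩

/-- Absolute summability. -/
lemma l1 (h : Bd P s c M) (hs : 2 ≤ s) : Summable (fun n => ‖c n‖) ∧
    ∑' n, ‖c n‖ ≤ Real.sqrt (∑' n, ((wt0 P.R0 s n) ^ 2)⁻¹) * M := by
  have := h.summable_mul hs zero_le_one (fun _ => 1) (fun _ => zero_le_one) fun n => by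
    rw [one_mul, one_mul, wt_eq]
    exact le_mul_of_one_le_right (wt0_pos P.R0_pos.le _ _).le (one_le_wt0 P.R_pos.le _ _)
  simpa using this

end Bd

lemma chr_add (n m : ℤ × ℤ) (x : E2) : chr (n + m) x = chr n x * chr m x := by
  rw [chr, chr, chr, ← Complex.exp_add]
  congr 1
  simp only [Prod.fst_add, Prod.snd_add, Int.cast_add]
  push_cast
  ring

lemma norm_chr (n : ℤ × ℤ) (x : E2) : ‖chr n x‖ = 1 := by
  rw [chr, show (2 : ℂ) * π * (((n.1 : ℝ) : ℂ) * x.1 + ((n.2 : ℝ) : ℂ) * x.2) * Complex.I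
    = ((2 * π * ((n.1 : ℝ) * x.1 + (n.2 : ℝ) * x.2) : ℝ) : ℂ) * Complex.I by push_cast; ring]
  exact Complex.norm_exp_ofReal_mul_I _

lemma chr_zero (x : E2) : chr 0 x = 1 := by simp [chr]

lemma continuous_chr (n : ℤ × ℤ) : Continuous (chr n) := by
  unfold chr
  fun_prop

/-- The one-dimensional character. -/
noncomputable def ch1 (k : ℤ) (x : ℝ) : ℂ := Complex.exp (2 * π * ((k : ℝ) * x) * Complex.I)

lemma chr_eq_mul (n : ℤ × ℤ) (x y : ℝ) : chr n (x, y) = ch1 n.1 x * ch1 n.2 y := by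
  rw [chr, ch1, ch1, ← Complex.exp_add]
  congr 1
  push_cast
  ring

lemma continuous_ch1 (k : ℤ) : Continuous (ch1 k) := by
  unfold ch1
  fun_prop

lemma ch1_int (k m : ℤ) : ch1 k m = 1 := by
  rw [ch1, show (2 : ℂ) * π * (((k : ℝ) : ℂ) * ((m : ℝ) : ℂ)) * Complex.I
    = ((k * m : ℤ) : ℂ) * (2 * π * Complex.I) by push_cast; ring]
  exact Complex.exp_int_mul_two_pi_mul_I _

lemma ch1_add (k : ℤ) (x y : ℝ) : ch1 k (x + y) = ch1 k x * ch1 k y := by
  rw [ch1, ch1, ch1, ← Complex.exp_add]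
  congr 1
  push_cast
  ring

lemma chr_per (n : ℤ × ℤ) : Per (chr n) := by
  rintro ⟨x, y⟩ a b
  rw [Prod.mk_add_mk, chr_eq_mul, chr_eq_mul, ch1_add, ch1_add, ch1_int, ch1_int, mul_one, mul_one]

lemma integral_ch1 (k : ℤ) : ∫ x in (0 : ℝ)..1, ch1 k x = if k = 0 then 1 else 0 := by
  rcases eq_or_ne k 0 with rfl | hk
  · simp [ch1]
  rw [if_neg hk]
  have h : (fun x : ℝ => ch1 k x) = fun x : ℝ => Complex.exp ((2 * π * (k : ℂ) * Complex.I) * x) := by
    funext x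
    rw [ch1]
    congr 1
    push_cast
    ring
  rw [h, integral_exp_mul_complex (by
    simp [Real.pi_ne_zero, hk, Complex.I_ne_zero])]
  have h1 : Complex.exp (2 * π * (k : ℂ) * Complex.I) = 1 := by
    rw [show (2 : ℂ) * π * (k : ℂ) * Complex.I = (k : ℂ) * (2 * π * Complex.I) by ring]
    exact Complex.exp_int_mul_two_pi_mul_I _
  simp [h1]

/-- The mean of a function over the unit square. -/
noncomputable def mean2 (f : E2 → ℂ) : ℂ := ∫ x in (0 : ℝ)..1, ∫ y in (0 : ℝ)..1, f (x, y)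

lemma fc_eq_mean2 (f : E2 → ℂ) (n : ℤ × ℤ) : fc f n = mean2 fun x => chr (-n) x * f x := rfl

lemma mean2_chr (n : ℤ × ℤ) : mean2 (chr n) = if n = 0 then 1 else 0 := by
  simp only [mean2, chr_eq_mul, intervalIntegral.integral_const_mul, intervalIntegral.integral_mul_const,
    integral_ch1]
  rcases n with ⟨a, b⟩
  by_cases ha : a = 0 <;> by_cases hb : b = 0 <;> simp [ha, hb, Prod.ext_iff]

lemma continuous_mean_inner {f : E2 → ℂ} (hf : Continuous f) :
    Continuous fun x => ∫ y in (0 : ℝ)..1, f (x, y) :=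
  intervalIntegral.continuous_parametric_intervalIntegral_of_continuous' (f := fun x y => f (x, y))
    (by exact hf) 0 1

lemma mean2_add {f h : E2 → ℂ} (hf : Continuous f) (hh : Continuous h) :
    mean2 (fun x => f x + h x) = mean2 f + mean2 h := by
  rw [mean2, mean2, mean2, ← intervalIntegral.integral_add
    ((continuous_mean_inner hf).intervalIntegrable _ _) ((continuous_mean_inner hh).intervalIntegrable _ _)]
  refine intervalIntegral.integral_congr fun x _ => ?_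
  exact intervalIntegral.integral_add ((hf.comp (continuous_const.prodMk continuous_id)).intervalIntegrable _ _)
    ((hh.comp (continuous_const.prodMk continuous_id)).intervalIntegrable _ _)

lemma mean2_const_mul (c : ℂ) (f : E2 → ℂ) : mean2 (fun x => c * f x) = c * mean2 f := by
  simp only [mean2, intervalIntegral.integral_const_mul]

lemma norm_mean2_le {f : E2 → ℂ} {K : ℝ} (h : ∀ x, ‖f x‖ ≤ K) : ‖mean2 f‖ ≤ K := by
  have h1 : ∀ x, ‖∫ y in (0 : ℝ)..1, f (x, y)‖ ≤ K := fun x => by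
    simpa using intervalIntegral.norm_integral_le_of_norm_le_const (a := (0 : ℝ)) (b := 1)
      (f := fun y => f (x, y)) fun y _ => h _
  simpa [mean2] using intervalIntegral.norm_integral_le_of_norm_le_const (a := (0 : ℝ)) (b := 1)
    (f := fun x => ∫ y in (0 : ℝ)..1, f (x, y)) fun x _ => h1 x

lemma mean2_sum {ι : Type*} (S : Finset ι) {f : ι → E2 → ℂ} (hf : ∀ i, Continuous (f i)) :
    mean2 (fun x => ∑ i ∈ S, f i x) = ∑ i ∈ S, mean2 (f i) := by
  classical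
  induction S using Finset.induction with
  | empty => simp [mean2]
  | @insert a S ha ih =>
    simp only [Finset.sum_insert ha]
    rw [mean2_add (hf a) (continuous_finsetSum S fun i _ => hf i), ih]

lemma fc_norm_le {f : E2 → ℂ} {K : ℝ} (h : ∀ x, ‖f x‖ ≤ K) (n : ℤ × ℤ) : ‖fc f n‖ ≤ K :=
  norm_mean2_le (f := fun x => chr (-n) x * f x) fun x => by simpa [norm_chr] using h x

lemma fc_add {f h : E2 → ℂ} (hf : Continuous f) (hh : Continuous h) (n : ℤ × ℤ) :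
    fc (fun x => f x + h x) n = fc f n + fc h n := by
  simp only [fc_eq_mean2, mul_add]
  exact mean2_add ((continuous_chr _).mul hf) ((continuous_chr _).mul hh)

lemma fc_const_mul (c : ℂ) (f : E2 → ℂ) (n : ℤ × ℤ) : fc (fun x => c * f x) n = c * fc f n := by
  simp only [fc_eq_mean2]
  rw [← mean2_const_mul]
  congr 1
  funext x
  ring

lemma fc_sub {f h : E2 → ℂ} (hf : Continuous f) (hh : Continuous h) (n : ℤ × ℤ) :
    fc (fun x => f x - h x) n = fc f n - fc h n := by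
  have hh' : Continuous fun x => (-1 : ℂ) * h x := by fun_prop
  have := fc_add hf hh' n
  rw [fc_const_mul, neg_one_mul] at this
  simpa [sub_eq_add_neg] using this

lemma fc_sum {ι : Type*} (S : Finset ι) {f : ι → E2 → ℂ} (hf : ∀ i, Continuous (f i)) (n : ℤ × ℤ) :
    fc (fun x => ∑ i ∈ S, f i x) n = ∑ i ∈ S, fc (f i) n := by
  simp only [fc_eq_mean2, Finset.mul_sum]
  exact mean2_sum S fun i => (continuous_chr _).mul (hf i)

lemma fc_chr (m n : ℤ × ℤ) : fc (chr m) n = if n = m then 1 else 0 := by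
  rw [fc_eq_mean2]
  have : (fun x => chr (-n) x * chr m x) = chr (-n + m) := funext fun x => (chr_add _ _ x).symm
  rw [this, mean2_chr]
  by_cases h : n = m
  · simp [h]
  · rw [if_neg h, if_neg]
    intro h0
    exact h (neg_add_eq_zero.1 h0)

end Vale.Agent.P205
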