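import Vale.Agent.P205.Space.Basic

/-!
# P205, sums of Fourier series and uniqueness
-/

namespace Vale.Agent.P205

open Real MeasureTheory Finset
open scoped ContDiff

lemma summable_ev_term {c : Co} (h : Summable fun n => ‖c n‖) (x : E2) :
    Summable fun n => c n * chr n x :=
  Summable.of_norm (h.congr fun n => by simp [norm_chr])

lemma continuous_ev {c : Co} (h : Summable fun n => ‖c n‖) : Continuous (ev c) :=
  continuous_tsum (f := fun n x => c n * chr n x) (fun n => continuous_const.mul (continuous_chr n)) h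
    fun n x => by simp [norm_chr]

lemma per_ev (c : Co) : Per (ev c) := fun x a b => by simp only [ev, chr_per _ x a b]

lemma norm_ev_le {c : Co} (h : Summable fun n => ‖c n‖) (x : E2) : ‖ev c x‖ ≤ ∑' n, ‖c n‖ :=
  tsum_of_norm_bounded h.hasSum fun n => by simp [norm_chr]

lemma fc_trig (c : Co) (S : Finset (ℤ × ℤ)) (n : ℤ × ℤ) :
    fc (fun x => ∑ m ∈ S, c m * chr m x) n = if n ∈ S then c n else 0 := by
  rw [fc_sum S (f := fun m x => c m * chr m x) (fun m => continuous_const.mul (continuous_chr m))]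
  simp only [fc_const_mul, fc_chr, mul_ite, mul_one, mul_zero, Finset.sum_ite_eq]

lemma ev_sub_trig_le {c : Co} (h : Summable fun n => ‖c n‖) (S : Finset (ℤ × ℤ)) (x : E2) :
    ‖ev c x - ∑ m ∈ S, c m * chr m x‖ ≤ ∑' n, ‖c n‖ - ∑ m ∈ S, ‖c m‖ := by
  have h1 : ev c x = _ := ((summable_ev_term h x).sum_add_tsum_subtype_compl S).symm
  have h2 := h.sum_add_tsum_subtype_compl S
  rw [h1, add_sub_cancel_left, ← h2, add_sub_cancel_left]
  exact tsum_of_norm_bounded (h.subtype _).hasSum fun m => by simp [norm_chr]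

lemma fc_ev {c : Co} (h : Summable fun n => ‖c n‖) : fc (ev c) = c := by
  funext n
  by_contra hne
  have hpos : 0 < ‖fc (ev c) n - c n‖ := norm_pos_iff.2 (sub_ne_zero.2 hne)
  obtain ⟨S0, hS0⟩ := (Metric.tendsto_atTop.1 h.hasSum (‖fc (ev c) n - c n‖) hpos)
  set S := S0 ∪ {n} with hS
  have hd := hS0 S Finset.subset_union_left
  rw [Real.dist_eq, abs_sub_comm] at hd
  have hn : n ∈ S := Finset.mem_union_right _ (Finset.mem_singleton_self n)
  have hT : Continuous fun x => ∑ m ∈ S, c m * chr m x :=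
    continuous_finsetSum S fun m _ => continuous_const.mul (continuous_chr m)
  have := fc_norm_le (f := fun x => ev c x - ∑ m ∈ S, c m * chr m x) (ev_sub_trig_le h S) n
  rw [fc_sub (continuous_ev h) hT, fc_trig, if_pos hn] at this
  linarith [le_abs_self (∑' n, ‖c n‖ - ∑ m ∈ S, ‖c m‖)]

/-- A continuous periodic function of one variable with no Fourier coefficient vanishes. -/
lemma eq_zero_of_coeff {g : ℝ → ℂ} (hg : Continuous g) (hp : Function.Periodic g 1)
    (h : ∀ k : ℤ, ∫ x in (0 : ℝ)..1, ch1 (-k) x * g x = 0) (x : ℝ) : g x = 0 := by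
  have : Fact ((0 : ℝ) < 1) := ⟨one_pos⟩
  set G : C(AddCircle (1 : ℝ), ℂ) := ⟨hp.lift, Continuous.quotient_liftOn' hg _⟩
  have hG : ∀ t : ℝ, G (t : AddCircle (1 : ℝ)) = g t := fun t => hp.lift_coe t
  have hc : fourierCoeff G = 0 := by
    funext k
    rw [fourierCoeff_eq_intervalIntegral G k 0, zero_add, Pi.zero_apply]
    have he : (fun t : ℝ => fourier (-k) (t : AddCircle (1 : ℝ)) • G (t : AddCircle (1 : ℝ)))
        = fun t => ch1 (-k) t * g t := by
      funext t
      rw [hG, fourier_coe_apply, ch1, smul_eq_mul]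
      congr 2
      push_cast
      ring
    simp only [he, h k, smul_zero]
  have hsum : HasSum (fun i => fourierCoeff G i • fourier i (x : AddCircle (1 : ℝ))) (G x) :=
    has_pointwise_sum_fourier_series_of_summable (by rw [hc]; exact summable_zero) _
  simp only [hc, Pi.zero_apply, zero_smul] at hsum
  rw [← hG]
  exact hsum.unique hasSum_zero

/-- Fourier coefficients determine a continuous periodic function. -/
lemma eq_zero_of_fc {f : E2 → ℂ} (hf : Continuous f) (hp : Per f) (h : ∀ n, fc f n = 0) :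
    f = 0 := by
  have key : ∀ (b : ℤ) (x : ℝ), ∫ y in (0 : ℝ)..1, ch1 (-b) y * f (x, y) = 0 := by
    intro b
    refine eq_zero_of_coeff (g := fun x => ∫ y in (0 : ℝ)..1, ch1 (-b) y * f (x, y))
      (continuous_mean_inner (f := fun p => ch1 (-b) p.2 * f p)
        (((continuous_ch1 _).comp continuous_snd).mul hf)) (fun x => ?_) fun a => ?_
    · refine intervalIntegral.integral_congr fun y _ => ?_
      have := hp (x, y) 1 0
      simp only [Prod.mk_add_mk, Int.cast_one, Int.cast_zero, add_zero] at this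
      simp only [this]
    · have := h (a, b)
      simp only [fc, Prod.neg_mk, chr_eq_mul, mul_assoc, intervalIntegral.integral_const_mul] at this
      exact this
  funext p
  refine eq_zero_of_coeff (g := fun y => f (p.1, y)) (by fun_prop) (fun y => ?_)
    (fun k => key k p.1) p.2
  have := hp (p.1, y) 0 1
  simpa only [Prod.mk_add_mk, Int.cast_one, Int.cast_zero, add_zero] using this

lemma eq_of_fc {f h : E2 → ℂ} (hf : Continuous f) (hfp : Per f) (hh : Continuous h) (hhp : Per h)
    (he : ∀ n, fc f n = fc h n) : f = h := by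
  have := eq_zero_of_fc (f := fun x => f x - h x) (hf.sub hh)
    (fun x a b => by simp only [hfp x a b, hhp x a b])
    (fun n => by rw [fc_sub hf hh, he, sub_self])
  funext x
  exact sub_eq_zero.1 (congrFun this x)

lemma ev_fc {f : E2 → ℂ} (hf : Continuous f) (hp : Per f) (h : Summable fun n => ‖fc f n‖) :
    ev (fc f) = f :=
  eq_of_fc (continuous_ev h) (per_ev _) hf hp fun n => by rw [fc_ev h]

lemma Bd.nb_ev {P : Par} {s : ℕ} {c : Co} {M : ℝ} (h : Bd P s c M) (hs : 2 ≤ s) :
    Nb P s (ev c) M :=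
  ⟨continuous_ev (h.l1 hs).1, per_ev c, by rw [fc_ev (h.l1 hs).1]; exact h⟩

lemma Nb.ev_eq {P : Par} {s : ℕ} {f : E2 → ℂ} {M : ℝ} (h : Nb P s f M) (hs : 2 ≤ s) :
    ev (fc f) = f :=
  ev_fc h.1 h.2.1 (h.2.2.l1 hs).1

/-- Absolute summability, inversion and uniqueness. -/
theorem eval : EvalStmt := by
  intro R0 _ s hs
  refine ⟨Real.sqrt (∑' n, ((wt0 R0 s n) ^ 2)⁻¹), fun P hP => ?_⟩
  subst hP
  refine ⟨fun c M h => ⟨(h.l1 (by omega)).1, (h.l1 (by omega)).2, continuous_ev (h.l1 (by omega)).1,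
    per_ev c, fc_ev (h.l1 (by omega)).1⟩, fun f M h => ⟨h.ev_eq (by omega), fun x => ?_⟩⟩
  have hl := h.2.2.l1 (show 2 ≤ s by omega)
  calc ‖f x‖ = ‖ev (fc f) x‖ := by rw [h.ev_eq (by omega)]
    _ ≤ _ := (norm_ev_le hl.1 x).trans hl.2

end Vale.Agent.P205
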